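import Vale.Agent.P167.SG.Cls1

/-!
# P167, general `q`, SAND: the flat side near the target

`Flt`: the domain `ψ '' HH` near the target `xb`: in the box of radius `rf` it is, up to `δ`, the
upper half plane; the points `ψ z`, `‖z‖ ≥ X3` are in the box and the points of the box are `ψ z` with
`‖z‖ ≥ X1`; a gate below. `Flt.join`: near points of the box are joined near them.
-/

set_option autoImplicit false

namespace Vale.Agent.P167.SG

open Set Metric Filter Topology ComplexConjugate
open Vale.Agent.P153.R2.R1 (Conf dinv mb)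
open Vale.Agent.P153.R2.L1 (HH)
open Vale.Agent.P164 (loewnerDomain gf Zf)
open Vale.Agent.P167.H756 (Cls FD FD_mb FD_img HConf Drv cls_FD)

theorem seg_re {p q z : ℂ} (hz : z ∈ segment ℝ p q) :
    min p.re q.re ≤ z.re ∧ z.re ≤ max p.re q.re := by
  obtain ⟨a, b, ha, hb, hab, rfl⟩ := hz
  simp only [Complex.add_re, Complex.real_smul, Complex.re_ofReal_mul]
  have h1 := min_le_left p.re q.re
  have h2 := min_le_right p.re q.re
  have h3 := le_max_left p.re q.re
  have h4 := le_max_right p.re q.re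
  have hb' : b = 1 - a := by linarith
  subst hb'
  constructor <;> nlinarith

theorem seg_im {p q z : ℂ} (hz : z ∈ segment ℝ p q) :
    min p.im q.im ≤ z.im ∧ z.im ≤ max p.im q.im := by
  obtain ⟨a, b, ha, hb, hab, rfl⟩ := hz
  simp only [Complex.add_im, Complex.real_smul, Complex.im_ofReal_mul]
  have h1 := min_le_left p.im q.im
  have h2 := min_le_right p.im q.im
  have h3 := le_max_left p.im q.im
  have h4 := le_max_right p.im q.im
  have hb' : b = 1 - a := by linarith
  subst hb'
  constructor <;> nlinarith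

/-- The box around the target. -/
def Bf (xb r : ℝ) : Set ℂ := {z | |z.re - xb| < r ∧ |z.im| < r}

theorem bf_mono {xb r r' : ℝ} (h : r ≤ r') : Bf xb r ⊆ Bf xb r' :=
  fun _ hz => ⟨hz.1.trans_le h, hz.2.trans_le h⟩

theorem bf_near {xb r d : ℝ} {u v : ℂ} (hu : u ∈ Bf xb r) (h : dist u v ≤ d) :
    v ∈ Bf xb (r + d) := by
  rw [dist_comm, dist_eq_norm] at h
  have h1 := (Complex.abs_re_le_norm (v - u)).trans h
  have h2 := (Complex.abs_im_le_norm (v - u)).trans h
  rw [Complex.sub_re] at h1
  rw [Complex.sub_im] at h2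
  obtain ⟨h3, h4⟩ := hu
  rw [abs_lt] at h3 h4
  rw [abs_le] at h1 h2
  refine ⟨?_, ?_⟩ <;> rw [abs_lt] <;> constructor <;> linarith

/-- The flat side near the target. -/
structure Flt (ψ : ℂ → ℂ) (xb rf cg X1 X3 δ : ℝ) (Gt : Set ℂ) (x₁ : ℂ) : Prop where
  hδ : 0 < δ
  hrf : 0 < rf
  hX1 : 0 < X1
  hX3 : X1 ≤ X3
  near : ∀ z ∈ HH, X3 ≤ ‖z‖ → ψ z ∈ Bf xb (rf / 4)
  far : ∀ z ∈ HH, ψ z ∈ Bf xb rf → X1 ≤ ‖z‖
  low : ∀ z ∈ HH, ψ z ∈ Bf xb rf → -δ < (ψ z).im
  up : ∀ w ∈ Bf xb rf, δ < w.im → w ∈ ψ '' HH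
  lift : ∀ w ∈ ψ '' HH, w ∈ Bf xb rf → ∀ w' ∈ Bf xb rf, w'.re = w.re → w.im ≤ w'.im → w' ∈ ψ '' HH
  gc : IsPreconnected Gt
  g0 : (⟨xb, -(rf / 2)⟩ : ℂ) ∈ Gt
  gfar : ∀ x ∈ Gt, ∀ u ∈ ψ '' HH, cg ≤ dist x u
  g1 : x₁ ∈ Gt
  g2 : ∀ u ∈ ψ '' HH, u.re + cg ≤ x₁.re

namespace Flt

variable {ψ : ℂ → ℂ} {xb rf cg X1 X3 δ : ℝ} {Gt : Set ℂ} {x₁ : ℂ} {T R : ℝ} {W : ℝ → ℝ} {t : ℝ}
  (H : Flt ψ xb rf cg X1 X3 δ Gt x₁) (Hd : Drv T R W t) (h1 : 4 * R ≤ X1) (h2 : 16 * T ≤ X1 ^ 2)
include H Hd h1 h2

theorem dom_of {w : ℂ} (hw : w ∈ ψ '' HH) (hb : w ∈ Bf xb rf) : w ∈ ψ '' loewnerDomain W t := by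
  obtain ⟨z, hz, rfl⟩ := hw
  exact ⟨z, (zf_far Hd H.hX1 h1 h2 hz (H.far z hz hb)).1, rfl⟩

theorem low' {w : ℂ} (hw : w ∈ ψ '' loewnerDomain W t) (hb : w ∈ Bf xb rf) : -δ < w.im := by
  obtain ⟨z, hz, rfl⟩ := hw
  exact H.low z (Vale.Agent.P164.im_pos_of_dom Hd.nn hz) hb

/-- **Near points of the box are joined.** -/
theorem join {u v : ℂ} {d : ℝ} (hu : u ∈ ψ '' loewnerDomain W t)
    (hv : v ∈ ψ '' loewnerDomain W t) (hub : u ∈ Bf xb (rf / 2)) (hd : 0 < d) (huv : dist u v ≤ d)
    (hsm : 2 * d + 4 * δ ≤ rf / 2) : Jd (ψ '' loewnerDomain W t) (2 * d + 4 * δ) u v := by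
  have hδ := H.hδ
  have hrf := H.hrf
  have hvb := bf_near hub huv
  have hub' : u ∈ Bf xb rf := bf_mono (by linarith) hub
  have hvb' : v ∈ Bf xb rf := bf_mono (by linarith) hvb
  have hul := H.low' Hd h1 h2 hu hub'
  have hvl := H.low' Hd h1 h2 hv hvb'
  have hsub : ψ '' loewnerDomain W t ⊆ ψ '' HH := image_mono fun z hz =>
    Vale.Agent.P164.im_pos_of_dom Hd.nn hz
  have hdre : |v.re - u.re| ≤ d := by
    rw [dist_comm, dist_eq_norm] at huv
    have := (Complex.abs_re_le_norm (v - u)).trans huv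
    rwa [Complex.sub_re] at this
  have hdim : |v.im - u.im| ≤ d := by
    rw [dist_comm, dist_eq_norm] at huv
    have := (Complex.abs_im_le_norm (v - u)).trans huv
    rwa [Complex.sub_im] at this
  obtain ⟨hu1, hu2⟩ := hub
  obtain ⟨hv1, hv2⟩ := hvb
  rw [abs_le] at hdre hdim
  rw [abs_lt] at hu1 hu2 hv1 hv2
  set h : ℝ := max (max u.im v.im) δ + δ with hh
  have hh1 : u.im ≤ h - δ := by rw [hh]; linarith [le_max_left u.im v.im, le_max_left (max u.im v.im) δ]
  have hh2 : v.im ≤ h - δ := by rw [hh]; linarith [le_max_right u.im v.im, le_max_left (max u.im v.im) δ]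
  have hh3 : 2 * δ ≤ h := by rw [hh]; linarith [le_max_right (max u.im v.im) δ]
  have hh4 : h ≤ u.im + (d + 3 * δ) := by
    have : max (max u.im v.im) δ ≤ u.im + (d + 2 * δ) := by
      refine max_le (max_le (by linarith) (by linarith)) (by linarith)
    rw [hh]; linarith
  have hh5 : h ≤ v.im + (d + 3 * δ) := by
    have : max (max u.im v.im) δ ≤ v.im + (d + 2 * δ) := by
      refine max_le (max_le (by linarith) (by linarith)) (by linarith)
    rw [hh]; linarith
  set u' : ℂ := ⟨u.re, h⟩ with hu'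
  set v' : ℂ := ⟨v.re, h⟩ with hv'
  have c1 := (convex_segment (𝕜 := ℝ) u u').isPreconnected
  have c2 := (convex_segment (𝕜 := ℝ) u' v').isPreconnected
  have c3 := (convex_segment (𝕜 := ℝ) v' v).isPreconnected
  have c12 : IsPreconnected (segment ℝ u u' ∪ segment ℝ u' v') :=
    IsPreconnected.union u' (right_mem_segment ℝ _ _) (left_mem_segment ℝ _ _) c1 c2
  refine ⟨(segment ℝ u u' ∪ segment ℝ u' v') ∪ segment ℝ v' v,
    IsPreconnected.union v' (Or.inr (right_mem_segment ℝ _ _)) (left_mem_segment ℝ _ _) c12 c3,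
    ?_, ?_, Or.inl (Or.inl (left_mem_segment ℝ _ _)), Or.inr (right_mem_segment ℝ _ _)⟩
  · rintro w ((hw | hw) | hw)
    · have a1 := seg_re hw
      have a2 := seg_im hw
      simp only [hu', min_self, max_self] at a1
      have e1 : w.re = u.re := le_antisymm a1.2 a1.1
      have e2 : min u.im h = u.im := min_eq_left (by linarith)
      have e3 : max u.im h = h := max_eq_right (by linarith)
      simp only [hu', e2, e3] at a2
      have hwb : w ∈ Bf xb rf := by
        refine ⟨?_, ?_⟩
        · rw [e1, abs_lt]; constructor <;> linarith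
        · rw [abs_lt]; constructor <;> linarith
      exact H.dom_of Hd h1 h2 (H.lift u (hsub hu) hub' w hwb e1 a2.1) hwb
    · have a1 := seg_re hw
      have a2 := seg_im hw
      simp only [hu', hv', min_self, max_self] at a2
      simp only [hu', hv'] at a1
      have b1 : xb - rf < min u.re v.re := lt_min (by linarith) (by linarith)
      have b2 : max u.re v.re < xb + rf := max_lt (by linarith) (by linarith)
      have hwb : w ∈ Bf xb rf := by
        refine ⟨?_, ?_⟩
        · rw [abs_lt]; constructor <;> linarith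
        · rw [abs_lt]; constructor <;> linarith
      exact H.dom_of Hd h1 h2 (H.up w hwb (by linarith)) hwb
    · have a1 := seg_re hw
      have a2 := seg_im hw
      simp only [hv', min_self, max_self] at a1
      have e1 : w.re = v.re := le_antisymm a1.2 a1.1
      have e2 : min h v.im = v.im := min_eq_right (by linarith)
      have e3 : max h v.im = h := max_eq_left (by linarith)
      simp only [hv', e2, e3] at a2
      have hwb : w ∈ Bf xb rf := by
        refine ⟨?_, ?_⟩
        · rw [e1, abs_lt]; constructor <;> linarith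
        · rw [abs_lt]; constructor <;> linarith
      exact H.dom_of Hd h1 h2 (H.lift v (hsub hv) hvb' w hwb e1 a2.1) hwb
  · have key : ∀ w : ℂ, |w.re - u.re| ≤ d → |w.im - u.im| ≤ d + 3 * δ → w ∈ ball u (2 * d + 4 * δ) := by
      intro w hw1 hw2
      rw [mem_ball, dist_eq_norm]
      have := Complex.norm_le_abs_re_add_abs_im (w - u)
      rw [Complex.sub_re, Complex.sub_im] at this
      linarith
    rintro w ((hw | hw) | hw)
    · have a1 := seg_re hw
      have a2 := seg_im hw
      simp only [hu', min_self, max_self] at a1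
      have e1 : w.re = u.re := le_antisymm a1.2 a1.1
      have e2 : min u.im h = u.im := min_eq_left (by linarith)
      have e3 : max u.im h = h := max_eq_right (by linarith)
      simp only [hu', e2, e3] at a2
      apply key w
      · rw [e1, sub_self, abs_zero]; exact hd.le
      · rw [abs_le]; constructor <;> linarith
    · have a1 := seg_re hw
      have a2 := seg_im hw
      simp only [hu', hv', min_self, max_self] at a2
      simp only [hu', hv'] at a1
      have b1 : u.re - d ≤ min u.re v.re := le_min (by linarith) (by linarith)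
      have b2 : max u.re v.re ≤ u.re + d := max_le (by linarith) (by linarith)
      apply key w
      · rw [abs_le]; constructor <;> linarith
      · rw [abs_le]; constructor <;> linarith
    · have a1 := seg_re hw
      have a2 := seg_im hw
      simp only [hv', min_self, max_self] at a1
      have e1 : w.re = v.re := le_antisymm a1.2 a1.1
      have e2 : min h v.im = v.im := min_eq_right (by linarith)
      have e3 : max h v.im = h := max_eq_left (by linarith)
      simp only [hv', e2, e3] at a2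
      apply key w
      · rw [e1, abs_le]; constructor <;> linarith
      · rw [abs_le]; constructor <;> linarith

end Flt

end Vale.Agent.P167.SG
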