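import Vale.Agent.P167.SG.Cls2

/-!
# P167, general `q`, SAND: the situation for a domain of a Loewner chain

`Cst`: the constants of the disc. `Hst`: the law-free properties of one history (obstacles `K i`,
side `IN` which is pushed in, conflict pairs are in the obstacles). `sit_of`: `Sit`, `NC2`, the points
which see `IN` are near the flat side.
-/

set_option autoImplicit false

namespace Vale.Agent.P167.SG

open Set Metric Filter Topology ComplexConjugate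
open Vale.Agent.P153.R2.R1 (Conf dinv mb)
open Vale.Agent.P153.R2.L1 (HH)
open Vale.Agent.P164 (loewnerDomain gf Zf)
open Vale.Agent.P167.H756 (Cls FD FD_mb FD_img HConf Drv cls_FD)
open Vale.Agent.P167.H450.Out (OD Pm)

/-- The constants of the disc: `x3 < x' < xc < xB` (real parts), `τ` height, `κ` collar. -/
structure Cst (x3 xB τ κ x' xc ε η e ν : ℝ) : Prop where
  hτ : 0 < τ
  hτ1 : τ ≤ 1
  hx' : 0 ≤ x'
  hx'1 : x' < 1
  hxc0 : 0 ≤ xc
  hxc1 : xc < 1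
  hε : 0 < ε
  hε1 : ε ≤ 1 / 4
  hη : 0 < η
  hη1 : x' ^ 2 + η ^ 2 < 1
  hη2 : η < 1
  he : 0 < e
  he1 : 2 * e < 1
  hν : 0 < ν
  f1 : ν < ε - ε / 2
  f2 : ν < τ / 2 * (1 - ε) - η
  f3 : ν < xc * (1 - ε) - x'
  g1 : 4 * e + 2 * ν ≤ τ / 2
  g2 : ε + 4 * e + 2 * ν ≤ κ
  g3 : xc + 4 * e < xB
  s1 : 2 * ν < ε / 2
  s2 : 2 * ν < τ / 2 * (1 - 2 * ν)
  s3 : 2 * ν < η * (1 - 2 * ν)
  s4 : x3 < x' * (1 - 2 * ν)
  s5 : x3 < xc * (1 - 2 * ν)

theorem exists_cst {x3 xB τ κ : ℝ} (h3 : 0 < x3) (h3B : x3 < xB) (hB : xB < 1) (hτ : 0 < τ)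
    (hτ1 : τ ≤ 1) (hκ : 0 < κ) : ∃ x' xc ε η e ν : ℝ, Cst x3 xB τ κ x' xc ε η e ν := by
  set g : ℝ := (xB - x3) / 3 with hg
  have hg0 : 0 < g := by rw [hg]; linarith
  have hg1 : g < 1 := by rw [hg]; linarith
  set x' : ℝ := x3 + g with hx'
  set xc : ℝ := x3 + 2 * g with hxc
  have hxB : xB = x3 + 3 * g := by rw [hg]; ring
  set ε : ℝ := min (1 / 4) (min (κ / 2) (g / 2)) with hε
  have e1 : ε ≤ 1 / 4 := min_le_left _ _
  have e2 : ε ≤ κ / 2 := (min_le_right _ _).trans (min_le_left _ _)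
  have e3 : ε ≤ g / 2 := (min_le_right _ _).trans (min_le_right _ _)
  have e0 : 0 < ε := by positivity
  set η : ℝ := min (τ / 8) ((1 - x') / 2) with hη
  have h1x : 0 < 1 - x' := by rw [hx']; linarith
  have n1 : η ≤ τ / 8 := min_le_left _ _
  have n2 : η ≤ (1 - x') / 2 := min_le_right _ _
  have n0 : 0 < η := by positivity
  set e : ℝ := min (τ / 16) (min (κ / 32) (g / 8)) with he
  have a1 : e ≤ τ / 16 := min_le_left _ _
  have a2 : e ≤ κ / 32 := (min_le_right _ _).trans (min_le_left _ _)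
  have a3 : e ≤ g / 8 := (min_le_right _ _).trans (min_le_right _ _)
  have a0 : 0 < e := by positivity
  set ν : ℝ := min (ε / 8) (min (η / 4) (min (κ / 8) (g / 8))) with hν
  have b1 : ν ≤ ε / 8 := min_le_left _ _
  have b2 : ν ≤ η / 4 := (min_le_right _ _).trans (min_le_left _ _)
  have b3 : ν ≤ κ / 8 := (min_le_right _ _).trans ((min_le_right _ _).trans (min_le_left _ _))
  have b4 : ν ≤ g / 8 := (min_le_right _ _).trans ((min_le_right _ _).trans (min_le_right _ _))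
  have b0 : 0 < ν := by positivity
  have hx'p : 0 < x' := by rw [hx']; linarith
  have hxcp : 0 < xc := by rw [hxc]; linarith
  have hxc1 : xc < 1 := by linarith
  have hx'1 : x' < 1 := by linarith
  have c1 : xc * ε ≤ ε := mul_le_of_le_one_left e0.le hxc1.le
  have c2 : xc * ν ≤ ν := mul_le_of_le_one_left b0.le hxc1.le
  have c3 : x' * ν ≤ ν := mul_le_of_le_one_left b0.le hx'1.le
  have c4 : τ * ε ≤ τ * (1 / 4) := mul_le_mul_of_nonneg_left e1 hτ.le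
  have c5 : τ * ν ≤ τ * (1 / 32) := mul_le_mul_of_nonneg_left (by linarith) hτ.le
  have c6 : η * ν ≤ η * (1 / 32) := mul_le_mul_of_nonneg_left (by linarith) n0.le
  have d1 : x' ^ 2 ≤ x' := by
    rw [sq]; exact mul_le_of_le_one_left hx'p.le hx'1.le
  have d2 : η ^ 2 ≤ η := by
    rw [sq]; exact mul_le_of_le_one_left n0.le (by linarith)
  have k2 : τ / 2 * (1 - ε) = τ / 2 - τ * ε / 2 := by ring
  have k3 : xc * (1 - ε) = xc - xc * ε := by ring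
  have k4 : τ / 2 * (1 - 2 * ν) = τ / 2 - τ * ν := by ring
  have k5 : η * (1 - 2 * ν) = η - 2 * (η * ν) := by ring
  have k6 : x' * (1 - 2 * ν) = x' - 2 * (x' * ν) := by ring
  have k7 : xc * (1 - 2 * ν) = xc - 2 * (xc * ν) := by ring
  have l1 : x' ^ 2 + η ^ 2 < 1 := by linarith
  have l2 : ν < τ / 2 * (1 - ε) - η := by rw [k2]; linarith
  have l3 : ν < xc * (1 - ε) - x' := by rw [k3]; linarith
  have l4 : 2 * ν < τ / 2 * (1 - 2 * ν) := by rw [k4]; linarith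
  have l5 : 2 * ν < η * (1 - 2 * ν) := by rw [k5]; linarith
  have l6 : x3 < x' * (1 - 2 * ν) := by rw [k6]; linarith
  have l7 : x3 < xc * (1 - 2 * ν) := by rw [k7]; linarith
  exact ⟨x', xc, ε, η, e, ν, ⟨hτ, hτ1, hx'p.le, hx'1, hxcp.le, hxc1, e0, e1, n0, l1, by linarith, a0,
    by linarith, b0, by linarith, l2, l3, by linarith, by linarith, by linarith, by linarith, l4, l5,
    l6, l7⟩⟩

/-- `u` is joined to the tip `tp` near `u`. -/
def TipJ (D : Set ℂ) (r : ℝ) (tp u : ℂ) : Prop :=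
  ∃ C : Set ℂ, IsPreconnected C ∧ C ⊆ D ∧ C ⊆ ball u r ∧ u ∈ C ∧ tp ∈ closure C

/-- The properties of one history. -/
structure Hst {ι : Type} (σ ν r₀ ρ r' ℓ s₂ xb rf : ℝ) (ψ : ℂ → ℂ) (W : ℝ → ℝ) (t : ℝ) (tp : ℂ)
    (IN : Set ℂ) (K : ι → Set ℂ) : Prop where
  hσ : |σ| = 1
  pc : IsPreconnected (ψ '' loewnerDomain W t)ᶜ
  ksub : ∀ i, K i ⊆ ψ '' loewnerDomain W t
  kconn : ∀ i, IsPreconnected (K i)
  ksmall : ∀ i, ∀ x ∈ K i, ∀ y ∈ K i, dist x y ≤ s₂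
  kbd : ∀ i, ∃ x ∈ closure (K i), x ∉ ψ '' loewnerDomain W t
  kbox : ∀ i, ∀ z ∈ K i, z ∈ Bf xb (rf / 2) → z.im ≤ 0
  teeth : ∀ z ∈ ψ '' loewnerDomain W t, z ∈ Bf xb (rf / 2) → z.im ≤ 0 → ∃ i, z ∈ K i
  side : ∀ w ∈ loewnerDomain W t, ψ w ∈ IN → ∃ x : ℝ, 0 ≤ σ * x ∧
    dist (pos W t w) (mb 1 Complex.I x) ≤ ν
  tip : ∀ C ⊆ ψ '' loewnerDomain W t, tp ∈ closure C →
    ∀ ε > 0, ∃ w ∈ loewnerDomain W t, ψ w ∈ C ∧ dist (pos W t w) (-1) < ε
  nc : ∀ u ∈ ψ '' loewnerDomain W t, ∀ y ∈ ψ '' loewnerDomain W t, dist u y ≤ 12 * ℓ →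
    ¬ Jd (ψ '' loewnerDomain W t) r₀ u y → (¬ ∃ z ∈ IN, Jd (ψ '' loewnerDomain W t) ρ u z) →
    (¬ ∃ z ∈ IN, Jd (ψ '' loewnerDomain W t) ρ y z) → ¬ TipJ (ψ '' loewnerDomain W t) r' tp u →
    ¬ TipJ (ψ '' loewnerDomain W t) r' tp y → ∃ i, u ∈ K i

/-- Near the closed arc which is pushed in (it contains the tip). -/
def Nr2 (σ ν : ℝ) (w : ℂ) : Prop := ∃ ω : ℂ, ‖ω‖ = 1 ∧ σ * ω.im ≤ 0 ∧ dist w ω ≤ 2 * ν

theorem jd_mono {D : Set ℂ} {r r' : ℝ} {u v : ℂ} (h : Jd D r u v) (hr : r ≤ r') : Jd D r' u v := by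
  obtain ⟨C, h1, h2, h3, h4, h5⟩ := h
  exact ⟨C, h1, h2, h3.trans (ball_subset_ball hr), h4, h5⟩

theorem jd_symm {D : Set ℂ} {r r' d : ℝ} {u v : ℂ} (h : Jd D r u v) (hd : dist u v ≤ d)
    (hr : r + d ≤ r') : Jd D r' v u := by
  obtain ⟨C, h1, h2, h3, h4, h5⟩ := h
  exact ⟨C, h1, h2, h3.trans (ball_subset_ball' (by linarith)), h5, h4⟩

/-- The points of the real axis. -/
theorem mb_real {σ x : ℝ} (hx : 0 ≤ σ * x) : ‖mb 1 Complex.I (x : ℂ)‖ = 1 ∧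
    σ * (mb 1 Complex.I (x : ℂ)).im ≤ 0 := by
  refine ⟨Vale.Agent.P153.R2.R1.norm_mb_eq norm_one (by simp) (by simp), ?_⟩
  have e : (mb 1 Complex.I (x : ℂ)).im = -(2 * x) / (x ^ 2 + 1) := by
    rw [mb, Complex.conj_I, sub_neg_eq_add, one_mul, Complex.div_im]
    simp only [Complex.sub_re, Complex.sub_im, Complex.add_re, Complex.add_im, Complex.ofReal_re,
      Complex.ofReal_im, Complex.I_re, Complex.I_im, Complex.normSq_apply]
    have h : x ^ 2 + 1 ≠ 0 := by positivity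
    field_simp
    ring
  rw [e, ← mul_div_assoc]
  apply div_nonpos_of_nonpos_of_nonneg
  · nlinarith
  · positivity

/-- A small connected set up to the boundary. -/
theorem closure_bd {F : ℂ → ℂ} {D K : Set ℂ} (h : Conf F D) (hK : K ⊆ D) {x : ℂ}
    (hx : x ∈ closure K) (hxD : x ∉ D) : ∃ s ∈ closure (dinv F '' K), 1 ≤ ‖s‖ := by
  by_contra hcon
  push Not at hcon
  have hsub : closure (dinv F '' K) ⊆ ball 0 1 := fun s hs => mem_ball_zero_iff.2 (hcon s hs)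
  have hb : Bornology.IsBounded (dinv F '' K) := by
    apply isBounded_ball (x := (0 : ℂ)) (r := 1) |>.subset
    exact subset_closure.trans hsub
  have hc : IsCompact (closure (dinv F '' K)) := hb.isCompact_closure
  have hF : ContinuousOn F (closure (dinv F '' K)) := h.diff.continuousOn.mono hsub
  have hcl : IsClosed (F '' closure (dinv F '' K)) := (hc.image_of_continuousOn hF).isClosed
  have h1 : K ⊆ F '' closure (dinv F '' K) := by
    intro y hy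
    exact ⟨dinv F y, subset_closure ⟨y, hy, rfl⟩, h.apply_dinv (hK hy)⟩
  obtain ⟨s, hs, rfl⟩ := closure_minimal h1 hcl hx
  exact hxD (h.mem (hsub hs))

/-- A position near the pushed-in arc is in the common part. -/
theorem re_of_see {σ εa ηa xa x3 ν : ℝ} {w ω : ℂ} (hσ : |σ| = 1) (hω : ‖ω‖ = 1)
    (hω2 : σ * ω.im ≤ 0) (hd : dist w ω ≤ 2 * ν) (h1 : 2 * ν ≤ εa) (hη : 0 ≤ ηa)
    (h2 : 2 * ν < ηa * (1 - 2 * ν)) (hx : 0 ≤ xa) (h3 : x3 < xa * (1 - 2 * ν))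
    (hw : w ∈ Rr σ εa ηa xa) : x3 < w.re := by
  have hn : 1 - 2 * ν ≤ ‖w‖ := by
    have := norm_sub_norm_le ω w
    rw [← dist_eq_norm, dist_comm, hω] at this
    linarith
  rcases hw.2 with h | h | h
  · linarith
  · exfalso
    have h4 : |w.im - ω.im| ≤ dist w ω := by
      rw [dist_eq_norm, ← Complex.sub_im]; exact Complex.abs_im_le_norm _
    have h5 : σ * (w.im - ω.im) ≤ |w.im - ω.im| := by
      have := le_abs_self (σ * (w.im - ω.im))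
      rwa [abs_mul, hσ, one_mul] at this
    have h6 : ηa * (1 - 2 * ν) ≤ ηa * ‖w‖ := mul_le_mul_of_nonneg_left hn hη
    have h7 : σ * (w.im - ω.im) = σ * w.im - σ * ω.im := by ring
    linarith
  · have h6 : xa * (1 - 2 * ν) ≤ xa * ‖w‖ := mul_le_mul_of_nonneg_left hn hx
    linarith

section

variable {T R Rd cd Y X1 X2 X3 x3 xB τ κ x' xc ε η e ν : ℝ}

/-- **The situation.** -/
theorem sit_of (hRd : 0 < Rd) (hcd : 0 < cd) (hY0 : 0 < Y) (hY : 8 * R ≤ Y)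
    (hY2 : 64 * T ≤ Y ^ 2) (h4R : 4 * R ≤ X1) (h16 : 16 * T ≤ X1 ^ 2) (hX3 : 1 ≤ X3)
    (hx3 : x3 = ((2 * X3) ^ 2 - 1) / ((2 * X3) ^ 2 + 1)) (C : Cst x3 xB τ κ x' xc ε η e ν) :
    ∃ r₁ > 0, ∀ {ι : Type} [Finite ι] {ψ : ℂ → ℂ} {W : ℝ → ℝ} {t σ xb rf cg δ r₀ ρ r' ℓ s₂ : ℝ}
      {Gt IN : Set ℂ} {x₁ tp : ℂ} {K : ι → Set ℂ}, HConf Rd cd Y ψ → Drv T R W t →
      Flt ψ xb rf cg X1 X3 δ Gt x₁ → Hst σ ν r₀ ρ r' ℓ s₂ xb rf ψ W t tp IN K → 0 < ℓ →
      r₀ ≤ r₁ → ρ ≤ r₁ → r' ≤ r₁ → s₂ ≤ r₁ → 40 * ℓ ≤ r₀ → 4 * δ ≤ ℓ → r₀ ≤ rf / 8 →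
      Sit (FD ψ W t) σ ε (τ / 2) xc e ν (2 * r₀) ℓ (fun i => dinv (FD ψ W t) '' K i) ∧
      (∀ u ∈ Ug (FD ψ W t) σ ε (τ / 2) xc (fun i => dinv (FD ψ W t) '' K i),
        ∀ y ∈ ψ '' loewnerDomain W t, dist u y ≤ 12 * ℓ →
          (Nr2 σ ν (dinv (FD ψ W t) y) → x3 < (dinv (FD ψ W t) y).re) →
          Jd (ψ '' loewnerDomain W t) r₀ u y) ∧
      (∀ u z : ℂ, Jd (ψ '' loewnerDomain W t) ρ u z → z ∈ IN → Nr2 σ ν (dinv (FD ψ W t) u)) ∧
      (∀ u : ℂ, TipJ (ψ '' loewnerDomain W t) r' tp u → Nr2 σ ν (dinv (FD ψ W t) u)) ∧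
      (∀ u ∈ ψ '' loewnerDomain W t, x3 < (dinv (FD ψ W t) u).re → u ∈ Bf xb (rf / 4)) := by
  obtain ⟨c, hc, hcls⟩ := cls_FD (T := T) (R := R) hRd hcd hY0 hY hY2
  obtain ⟨η₁, hη₁, hs1⟩ := Cls.small_img (R := Rd) (c := c) hRd hc C.he
  obtain ⟨η₂, hη₂, hs2⟩ := Cls.small_img (R := Rd) (c := c) hRd hc C.hν
  obtain ⟨η₃, hη₃, hs3⟩ := Cls.inside (R := Rd) (c := c) hRd hc (ρ := 1 - ν) (by linarith [C.hν])
  refine ⟨min η₁ (min (η₂ / 4) η₃), by positivity, ?_⟩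
  intro ι _ ψ W t σ xb rf cg δ r₀ ρ r' ℓ s₂ Gt IN x₁ tp K hψ Hd HF HH' hℓ hr₀ hρ hr' hs₂ h40 hδℓ hrf
  have q1 : min η₁ (min (η₂ / 4) η₃) ≤ η₁ := min_le_left _ _
  have q2 : min η₁ (min (η₂ / 4) η₃) ≤ η₂ / 4 := (min_le_right _ _).trans (min_le_left _ _)
  have q3 : min η₁ (min (η₂ / 4) η₃) ≤ η₃ := (min_le_right _ _).trans (min_le_right _ _)
  have hδ := HF.hδ
  have hrf0 := HF.hrf
  set F : ℂ → ℂ := FD ψ W t with hF
  have hCls : Cls Rd c F := hcls ψ hψ W t Hd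
  have hconf : Conf F (F '' ball 0 1) := hCls.conf
  have hD : F '' ball 0 1 = ψ '' loewnerDomain W t := FD_img Hd ψ
  have hconf' : Conf F (ψ '' loewnerDomain W t) := by rw [← hD]; exact hconf
  have hdi : ∀ z ∈ loewnerDomain W t, dinv F (ψ z) = pos W t z := fun z hz =>
    dinv_FD Hd hψ.diff hψ.inj hz
  -- closeness of positions
  have hclose : ∀ C' ⊆ ψ '' loewnerDomain W t, IsPreconnected C' →
      (∀ x ∈ C', ∀ y ∈ C', dist x y ≤ η₂) → ∀ u ∈ C', ∀ v ∈ C',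
      dist (dinv F u) (dinv F v) ≤ ν := by
    intro C' hC' hpc hsm u hu v hv
    refine hs2 F hCls C' (by rw [hD]; exact hC') hpc hsm _ (hconf'.dinv_mem (hC' hu)) _
      (hconf'.dinv_mem (hC' hv)) ?_ ?_
    · rw [hconf'.apply_dinv (hC' hu)]; exact hu
    · rw [hconf'.apply_dinv (hC' hv)]; exact hv
  have hball : ∀ C' : Set ℂ, ∀ u : ℂ, ∀ s : ℝ, C' ⊆ ball u s → 2 * s ≤ η₂ →
      ∀ x ∈ C', ∀ y ∈ C', dist x y ≤ η₂ := by
    intro C' u s h1 h2 x hx y hy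
    have h3 := mem_ball.1 (h1 hx)
    have h4 := mem_ball.1 (h1 hy)
    have h5 := dist_triangle_right x y u
    linarith
  -- points which see the side
  have hsee : ∀ u z : ℂ, Jd (ψ '' loewnerDomain W t) ρ u z → z ∈ IN → Nr2 σ ν (dinv F u) := by
    rintro u z ⟨C', j1, j2, j3, j4, j5⟩ hz
    have h1 := hclose C' j2 j1 (hball C' u ρ j3 (by linarith)) u j4 z j5
    obtain ⟨w, hw, hwz⟩ := j2 j5
    obtain ⟨x, hx, hx2⟩ := HH'.side w hw (by rw [hwz]; exact hz)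
    obtain ⟨m1, m2⟩ := mb_real hx
    refine ⟨mb 1 Complex.I (x : ℂ), m1, m2, ?_⟩
    rw [← hdi w hw, hwz] at hx2
    exact (dist_triangle _ _ _).trans (by linarith)
  have htip : ∀ u : ℂ, TipJ (ψ '' loewnerDomain W t) r' tp u → Nr2 σ ν (dinv F u) := by
    rintro u ⟨C', j1, j2, j3, j4, j5⟩
    obtain ⟨w, hw, hwC, hw2⟩ := HH'.tip C' j2 j5 ν C.hν
    have h1 := hclose C' j2 j1 (hball C' u r' j3 (by linarith)) u j4 _ hwC
    rw [hdi w hw] at h1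
    refine ⟨-1, by simp, by simp, ?_⟩
    exact (dist_triangle _ _ _).trans (by linarith)
  -- positions near the target
  have hfar : ∀ u ∈ ψ '' loewnerDomain W t, x3 < (dinv F u).re → u ∈ Bf xb (rf / 4) := by
    rintro _ ⟨v, hv, rfl⟩ h3
    rw [hdi v hv, hx3] at h3
    have h4 := far_of_re Hd HF.hX1 h4R h16 HF.hX3 hX3 hv h3
    exact HF.near v (Vale.Agent.P164.im_pos_of_dom Hd.nn hv) h4.le
  -- the obstacles
  have hobs : Obs e (fun i => dinv F '' K i) := by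
    refine ⟨C.he.le, ?_, ?_, ?_, ?_⟩
    · rintro i _ ⟨x, hx, rfl⟩
      exact hconf'.dinv_mem (HH'.ksub i hx)
    · intro i
      exact (HH'.kconn i).image _ fun x hx =>
        (hconf'.dinv_continuousAt (HH'.ksub i hx)).continuousWithinAt
    · rintro i _ ⟨x, hx, rfl⟩ _ ⟨y, hy, rfl⟩
      refine hs1 F hCls (K i) (by rw [hD]; exact HH'.ksub i) (HH'.kconn i) ?_ _
        (hconf'.dinv_mem (HH'.ksub i hx)) _ (hconf'.dinv_mem (HH'.ksub i hy)) ?_ ?_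
      · intro a ha b hb
        exact (HH'.ksmall i a ha b hb).trans (by linarith)
      · rw [hconf'.apply_dinv (HH'.ksub i hx)]; exact hx
      · rw [hconf'.apply_dinv (HH'.ksub i hy)]; exact hy
    · intro i
      obtain ⟨x, hx, hxD⟩ := HH'.kbd i
      exact closure_bd hconf' (HH'.ksub i) hx hxD
  set κ' : ι → Set ℂ := fun i => dinv F '' K i with hκ'
  have hε1 : ε < 1 := by linarith [C.hε1]
  have hUsub : Ug F σ ε (τ / 2) xc κ' ⊆ ψ '' loewnerDomain W t := by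
    rw [← hD]
    exact image_mono fun w hw => rr_sub (gd_sub hw).1
  have hUgd : ∀ u ∈ Ug F σ ε (τ / 2) xc κ', dinv F u ∈ Gd σ ε (τ / 2) xc κ' := by
    rintro _ ⟨w, hw, rfl⟩
    rwa [hconf.dinv_apply (rr_sub (gd_sub hw).1)]
  have hUre : ∀ u ∈ Ug F σ ε (τ / 2) xc κ', Nr2 σ ν (dinv F u) → x3 < (dinv F u).re := by
    rintro u hu ⟨ω, o1, o2, o3⟩
    exact re_of_see HH'.hσ o1 o2 o3 (by linarith [C.s1, C.hε]) (by linarith [C.hτ]) C.s2 C.hxc0 C.s5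
      (gd_sub (hUgd u hu)).1
  have hjoin : ∀ u ∈ ψ '' loewnerDomain W t, ∀ y ∈ ψ '' loewnerDomain W t, dist u y ≤ 12 * ℓ →
      (u ∈ Bf xb (rf / 4) ∨ y ∈ Bf xb (rf / 4)) → Jd (ψ '' loewnerDomain W t) r₀ u y := by
    intro u hu y hy huy hb
    have hub : u ∈ Bf xb (rf / 2) := by
      rcases hb with h | h
      · exact bf_mono (by linarith) h
      · exact bf_mono (show rf / 4 + 12 * ℓ ≤ rf / 2 by linarith)
          (bf_near h ((dist_comm y u).le.trans huy))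
    exact jd_mono (HF.join Hd h4R h16 hu hy hub (by positivity) huy (by linarith)) (by linarith)
  -- (NC2)
  have hnc : ∀ u ∈ Ug F σ ε (τ / 2) xc κ', ∀ y ∈ ψ '' loewnerDomain W t, dist u y ≤ 12 * ℓ →
      (Nr2 σ ν (dinv F y) → x3 < (dinv F y).re) → Jd (ψ '' loewnerDomain W t) r₀ u y := by
    intro u hu y hy huy hy2
    have huD := hUsub hu
    have hug := hUgd u hu
    by_cases h1 : Nr2 σ ν (dinv F u)
    · exact hjoin u huD y hy huy (Or.inl (hfar u huD (hUre u hu h1)))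
    by_cases h2 : Nr2 σ ν (dinv F y)
    · exact hjoin u huD y hy huy (Or.inr (hfar y hy (hy2 h2)))
    by_contra hcon
    obtain ⟨i, hi⟩ := HH'.nc u huD y hy huy hcon (fun ⟨z, hz, hj⟩ => h1 (hsee u z hj hz))
      (fun ⟨z, hz, hj⟩ => h2 (hsee y z hj hz)) (fun h => h1 (htip u h)) (fun h => h2 (htip y h))
    have hN : dinv F u ∈ Nb κ' :=
      mem_iUnion.2 ⟨i, subset_closure (mem_image_of_mem (dinv F) hi)⟩
    exact (gd_sub hug).2 hN
  refine ⟨⟨hconf, hobs, C.he, C.he1, hε1, by linarith [C.hτ], HH'.hσ, C.hν.le, ?_, ?_, ?_, ?_⟩, ?_,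
    hsee, htip, hfar⟩
  · refine ⟨hℓ, by linarith, ?_, hconf.isOpen, ?_, hconf.isOpen_image ?_ isOpen_gd, ?_, ?_, ?_, ?_⟩
    · apply (isBounded_ball (x := F 0) (r := Rd + 1)).subset
      rintro _ ⟨w, hw, rfl⟩
      rw [mem_ball, dist_eq_norm]
      linarith [hCls.bdd w hw]
    · rw [hD]; exact HH'.pc
    · exact fun w hw => rr_sub (gd_sub hw).1
    · exact conn_gd.image _ (hconf.diff.continuousOn.mono fun w hw => rr_sub (gd_sub hw).1)
    · have h0 : (0 : ℂ) ∈ Gd σ ε (τ / 2) xc κ' := zero_mem_gd hobs (by linarith [C.he1, C.he]) hε1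
      exact ⟨F 0, mem_image_of_mem F h0⟩
    · exact image_mono fun w hw => rr_sub (gd_sub hw).1
    · intro u hu u' hu' huu
      obtain ⟨C', j1, j2, j3, j4, j5⟩ := hnc u hu u' (hUsub hu') huu (hUre u' hu')
      exact ⟨C', j1, by rw [hD]; exact j2, j3.trans (ball_subset_ball (by linarith)), j4, j5⟩
  · intro u _ C' hC' hpc hb hu v hv
    rw [hD] at hC'
    exact hclose C' hC' hpc (hball C' u _ hb (by linarith)) u hu v hv
  · intro C' hC' hpc hsm u hu v hv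
    rw [hD] at hC'
    exact hclose C' hC' hpc (fun x hx y hy => (hsm x hx y hy).trans (by linarith)) u hu v hv
  · intro u hu x hx hxu
    by_contra hcon
    push Not at hcon
    have h1 := hs3 F hCls (dinv F u) (mem_closedBall_zero_iff.2 hcon.le)
    rw [hconf.apply_dinv hu] at h1
    exact hx (h1 (mem_ball.2 (by linarith)))
  · exact hnc

end

end Vale.Agent.P167.SG
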