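import Vale.Agent.P167.SG.Disc
import Vale.Agent.P167.H450.OutB
import Vale.Agent.P167.H756.Small

/-!
# P167, general `q`, SAND: positions of the boundary points of the outer polygon

`F` a conformal map of the disc onto `D`, `U = F '' Gd` (`Gd` the disc without the collar over the
pushed-in arc and without the obstacles), `Pm ℓ U` the filled bricks which meet `U`.
* `Sit.close`, `Sit.close'`: points of `U` (of `D`) which are near and joined have near positions;
* `Sit.ftype`: a boundary point of the polygon in the component of `D` without the obstacles has a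
  position near the removed part: `σ Im ≤ ε' + 4 e + ν`;
* `Sit.near_alt`: the positions of the boundary points are near the circle or near the removed part;
* `walk`: the first index with `σ Im ≤ τ + ν` is near `- 1`.
-/

set_option autoImplicit false

namespace Vale.Agent.P167.SG

open Set Metric
open Vale.Agent.P153.R2.R1 (Conf dinv)
open Vale.Agent.P167.H756 (Cls)
open Vale.Agent.P167.H450 (sqr bk br reg)
open Vale.Agent.P167.H450.Out (OD Pm MF Fil Ofc sub_Pm frontier_Pm isOpen_Pm)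

/-- The image of the disc without collar and obstacles. -/
def Ug {ι : Type*} (F : ℂ → ℂ) (σ ε ε' xc : ℝ) (κ : ι → Set ℂ) : Set ℂ := F '' Gd σ ε ε' xc κ

theorem dist_segment {a b x y : ℂ} (hx : x ∈ segment ℝ a b) (hy : y ∈ segment ℝ a b) :
    dist x y ≤ dist a b := by
  obtain ⟨s, t, hs, ht, hst, rfl⟩ := hx
  obtain ⟨s', t', hs', ht', hst', rfl⟩ := hy
  have h1 : s = 1 - t := by linarith
  have h2 : s' = 1 - t' := by linarith
  have e1 : s • a + t • b - (s' • a + t' • b) = ((t - t' : ℝ) : ℂ) * (b - a) := by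
    rw [h1, h2]
    simp only [Complex.real_smul]
    push_cast
    ring
  rw [dist_eq_norm, e1, norm_mul, Complex.norm_real, Real.norm_eq_abs, dist_comm a b,
    dist_eq_norm]
  have h3 : |t - t'| ≤ 1 := by rw [abs_le]; constructor <;> linarith
  nlinarith [norm_nonneg (b - a)]

/-- Two points joined in `D` near `u`. -/
def Jd (D : Set ℂ) (r : ℝ) (u v : ℂ) : Prop :=
  ∃ C : Set ℂ, IsPreconnected C ∧ C ⊆ D ∧ C ⊆ ball u r ∧ u ∈ C ∧ v ∈ C

/-- The situation. -/
structure Sit {ι : Type*} (F : ℂ → ℂ) (σ ε ε' xc e ν r ℓ : ℝ) (κ : ι → Set ℂ) : Prop where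
  conf : Conf F (F '' ball 0 1)
  obs : Obs e κ
  he : 0 < e
  he1 : 2 * e < 1
  hε1 : ε < 1
  hε' : 0 ≤ ε'
  hσ : |σ| = 1
  hν : 0 ≤ ν
  od : OD ℓ r (F '' ball 0 1) (Ug F σ ε ε' xc κ)
  smr : ∀ u ∈ F '' ball 0 1, ∀ C ⊆ F '' ball 0 1, IsPreconnected C → C ⊆ ball u r → u ∈ C →
    ∀ v ∈ C, dist (dinv F u) (dinv F v) ≤ ν
  sml : ∀ C ⊆ F '' ball 0 1, IsPreconnected C → (∀ x ∈ C, ∀ y ∈ C, dist x y ≤ 3 * ℓ) →
    ∀ u ∈ C, ∀ v ∈ C, dist (dinv F u) (dinv F v) ≤ ν
  bdy : ∀ u ∈ F '' ball 0 1, ∀ x ∉ F '' ball 0 1, dist x u ≤ 3 * ℓ → 1 - ν ≤ ‖dinv F u‖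

namespace Sit

variable {ι : Type*} {F : ℂ → ℂ} {σ ε ε' xc e ν r ℓ : ℝ} {κ : ι → Set ℂ}
  (H : Sit F σ ε ε' xc e ν r ℓ κ) {u u' v x : ℂ}
include H

theorem sub : Ug F σ ε ε' xc κ ⊆ F '' ball 0 1 := H.od.sub

theorem pos_gd (hu : u ∈ Ug F σ ε ε' xc κ) : dinv F u ∈ Gd σ ε ε' xc κ := by
  obtain ⟨w, hw, rfl⟩ := hu
  rwa [H.conf.dinv_apply (rr_sub (gd_sub hw).1)]

theorem mem_of_pos (hv : v ∈ F '' ball 0 1) (h : dinv F v ∈ Gd σ ε ε' xc κ) :
    v ∈ Ug F σ ε ε' xc κ := ⟨dinv F v, h, H.conf.apply_dinv hv⟩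

theorem close (hu : u ∈ Ug F σ ε ε' xc κ) (hu' : u' ∈ Ug F σ ε ε' xc κ)
    (h : dist u u' ≤ 12 * ℓ) : dist (dinv F u) (dinv F u') ≤ ν := by
  obtain ⟨C, h1, h2, h3, h4, h5⟩ := H.od.nc u hu u' hu' h
  exact H.smr u (H.sub hu) C h2 h1 h3 h4 u' h5

theorem close' (hu : u ∈ F '' ball 0 1) (h : Jd (F '' ball 0 1) r u v) :
    dist (dinv F u) (dinv F v) ≤ ν := by
  obtain ⟨C, h1, h2, h3, h4, h5⟩ := h
  exact H.smr u hu C h2 h1 h3 h4 v h5

/-- The removed part has small height. -/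
theorem removed {w : ℂ} (hw : ‖w‖ < 1) (h : w ∉ Rr σ ε ε' xc) : σ * w.im ≤ ε' := by
  by_contra hcon
  push Not at hcon
  apply h
  refine ⟨hw, Or.inr (Or.inl ?_)⟩
  nlinarith [H.hε', norm_nonneg w]

theorem im_dist {w w' : ℂ} : σ * w.im ≤ σ * w'.im + dist w w' := by
  have h1 : |w.im - w'.im| ≤ dist w w' := by
    rw [dist_eq_norm, ← Complex.sub_im]; exact Complex.abs_im_le_norm _
  have h2 : σ * (w.im - w'.im) ≤ |σ| * |w.im - w'.im| := by
    rw [← abs_mul]; exact le_abs_self _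
  rw [H.hσ, one_mul] at h2
  linarith

/-- **Boundary points of the polygon which are seen from the base.** -/
theorem ftype [Finite ι] (hv : v ∉ Pm ℓ (Ug F σ ε ε' xc κ)) (hvD : v ∈ F '' ball 0 1)
    (hvd : dinv F v ∈ Dd κ) (hj : dist (dinv F u) (dinv F v) ≤ ν) :
    σ * (dinv F u).im ≤ ε' + 4 * e + ν := by
  have h1 : ¬ (ball (dinv F v) (4 * e) ∩ ball 0 1 ⊆ Rr σ ε ε' xc) := fun hsub =>
    hv (sub_Pm H.od.hℓ (H.mem_of_pos hvD (gd_of_deep H.obs H.he H.he1 H.hε1 hvd hsub)))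
  rw [not_subset] at h1
  obtain ⟨w, ⟨hw1, hw2⟩, hw3⟩ := h1
  have h2 := H.removed (mem_ball_zero_iff.1 hw2) hw3
  have h3 := H.im_dist (w := dinv F u) (w' := dinv F v)
  have h4 := H.im_dist (w := dinv F v) (w' := w)
  rw [mem_ball, dist_comm] at hw1
  linarith

/-- **The positions near the boundary of `U`.** -/
theorem near_alt [Finite ι] (hu : u ∈ Ug F σ ε ε' xc κ) (hv : v ∉ Ug F σ ε ε' xc κ)
    (huv : dist v u ≤ 3 * ℓ) : 1 - e - ν ≤ ‖dinv F u‖ ∨
      ∃ w : ℂ, ‖w‖ < 1 ∧ w ∉ Rr σ ε ε' xc ∧ dist (dinv F u) w ≤ 4 * e + ν := by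
  have he := H.he
  have huD := H.sub hu
  by_cases hseg : segment ℝ u v ⊆ F '' ball 0 1
  · have hC := (convex_segment (𝕜 := ℝ) u v).isPreconnected
    have hsm : ∀ x ∈ segment ℝ u v, ∀ y ∈ segment ℝ u v, dist x y ≤ 3 * ℓ := by
      intro x hx y hy
      have h1 := dist_segment hx hy
      rw [dist_comm] at huv
      linarith
    have hp : ∀ x ∈ segment ℝ u v, dist (dinv F u) (dinv F x) ≤ ν := fun x hx =>
      H.sml _ hseg hC hsm u (left_mem_segment ℝ _ _) x hx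
    by_cases hN : ∃ x ∈ segment ℝ u v, dinv F x ∈ Nb κ
    · left
      obtain ⟨x, hx, hxN⟩ := hN
      have h1 := H.obs.near' hxN
      have h2 := hp x hx
      rw [dist_comm, dist_eq_norm] at h2
      have h3 := norm_sub_norm_le (dinv F x) (dinv F u)
      linarith
    · right
      push Not at hN
      have hvD : v ∈ F '' ball 0 1 := hseg (right_mem_segment ℝ _ _)
      have hcont : ContinuousOn (dinv F) (segment ℝ u v) := fun x hx =>
        (H.conf.dinv_continuousAt (hseg hx)).continuousWithinAt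
      have h0 : (0 : ℂ) ∈ ball (0 : ℂ) 1 \ Nb κ := ⟨by simp, H.obs.zero_notMem (by linarith [H.he1])⟩
      have h2 : IsPreconnected (Dd κ ∪ dinv F '' segment ℝ u v) :=
        IsPreconnected.union (dinv F u) (gd_sub_dd (H.pos_gd hu))
          ⟨u, left_mem_segment ℝ _ _, rfl⟩ conn_dd (hC.image _ hcont)
      have hvd : dinv F v ∈ Dd κ := by
        refine h2.subset_connectedComponentIn (Or.inl (mem_connectedComponentIn h0)) ?_
          (Or.inr ⟨v, right_mem_segment ℝ _ _, rfl⟩)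
        refine union_subset dd_sub ?_
        rintro _ ⟨x, hx, rfl⟩
        exact ⟨H.conf.dinv_mem (hseg hx), hN x hx⟩
      have h1 : ¬ (ball (dinv F v) (4 * e) ∩ ball 0 1 ⊆ Rr σ ε ε' xc) := fun hsub =>
        hv (H.mem_of_pos hvD (gd_of_deep H.obs H.he H.he1 H.hε1 hvd hsub))
      rw [not_subset] at h1
      obtain ⟨w, ⟨hw1, hw2⟩, hw3⟩ := h1
      refine ⟨w, mem_ball_zero_iff.1 hw2, hw3, ?_⟩
      have h3 := dist_triangle (dinv F u) (dinv F v) w
      have h4 := hp v (right_mem_segment ℝ _ _)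
      rw [mem_ball, dist_comm] at hw1
      linarith
  · left
    rw [not_subset] at hseg
    obtain ⟨x, hx, hxD⟩ := hseg
    have h1 : dist x u ≤ 3 * ℓ := by
      have h2 := dist_segment hx (left_mem_segment ℝ u v)
      rw [dist_comm] at huv
      linarith
    have h2 := H.bdy u huD x hxD h1
    linarith

/-- A point of `D` joined to a point of `U` near it is near `Rr`. -/
theorem not_far (hv : v ∈ F '' ball 0 1) (hu : u ∈ Ug F σ ε ε' xc κ)
    (hj : Jd (F '' ball 0 1) r v u) (h : ∀ w ∈ Rr σ ε ε' xc, ν < dist (dinv F v) w) : False := by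
  have h1 := H.close' hv hj
  have h2 := h _ (gd_sub (H.pos_gd hu)).1
  linarith

end Sit

end Vale.Agent.P167.SG
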