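import Vale.Agent.P167.SG.Pos

/-!
# P167, general `q`, SAND: the position of the mark

`Sit.walk`: along a chain of points of `U` next to the boundary of the polygon, which starts at height
`> τ`, whose positions are not near `1`, and which reaches height `≤ τ + ν`: the first such index is
near `- 1`, and all heights up to there are `> τ`.
-/

set_option autoImplicit false

namespace Vale.Agent.P167.SG

open Set Metric
open Vale.Agent.P153.R2.R1 (Conf dinv)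

/-- A point near the circle of small height and not on the right is near `- 1`. -/
theorem near_neg_one {σ m τ x₀ : ℝ} {w : ℂ} (hσ : |σ| = 1) (hw : ‖w‖ < 1) (hm : 1 - m ≤ ‖w‖)
    (hm1 : m ≤ 1) (h0 : 0 ≤ σ * w.im) (hτ : σ * w.im ≤ τ) (hτ1 : τ ≤ 1) (hx0 : 0 ≤ x₀)
    (hx : w.re ≤ x₀) (hx1 : x₀ ^ 2 < (1 - m) ^ 2 - τ ^ 2) : dist w (-1) ≤ 2 * m + 2 * τ := by
  have hσ2 : σ ^ 2 = 1 := by rw [← sq_abs, hσ]; norm_num
  have hn : w.re ^ 2 + w.im ^ 2 = ‖w‖ ^ 2 := by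
    rw [← Complex.normSq_eq_norm_sq, Complex.normSq_apply]; ring
  have hi : w.im ^ 2 ≤ τ ^ 2 := by
    have : (σ * w.im) ^ 2 = w.im ^ 2 := by rw [mul_pow, hσ2, one_mul]
    rw [← this]
    exact pow_le_pow_left₀ h0 hτ 2
  have hre : (1 - m) ^ 2 - τ ^ 2 ≤ w.re ^ 2 := by
    have h2 : (1 - m) ^ 2 ≤ ‖w‖ ^ 2 := pow_le_pow_left₀ (by linarith) hm 2
    linarith
  have hneg : w.re < 0 := by
    by_contra hcon
    push Not at hcon
    have : w.re ^ 2 ≤ x₀ ^ 2 := pow_le_pow_left₀ hcon hx 2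
    linarith
  have h1 : -1 ≤ w.re := by
    have := Complex.abs_re_le_norm w
    rw [abs_le] at this
    linarith
  have h3 : 1 + w.re ≤ 2 * m + τ ^ 2 := by nlinarith
  have h4 : |w.im| ≤ τ := by
    have : |σ * w.im| = |w.im| := by rw [abs_mul, hσ, one_mul]
    rw [← this, abs_of_nonneg h0]
    exact hτ
  have h5 : dist w (-1) ≤ |w.re + 1| + |w.im| := by
    rw [dist_eq_norm, sub_neg_eq_add]
    have := Complex.norm_le_abs_re_add_abs_im (w + 1)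
    simpa using this
  rw [abs_of_nonneg (by linarith : 0 ≤ w.re + 1)] at h5
  have hτ0 : 0 ≤ τ := h0.trans hτ
  nlinarith

variable {ι : Type*} [Finite ι] {F : ℂ → ℂ} {σ ε ε' xc e ν r ℓ : ℝ} {κ : ι → Set ℂ}

/-- **The walk.** -/
theorem Sit.walk (H : Sit F σ ε ε' xc e ν r ℓ κ) {u v : ℕ → ℂ} {i₀ M : ℕ} {τ x₀ : ℝ}
    (hu : ∀ i, i₀ ≤ i → i ≤ M → u i ∈ Ug F σ ε ε' xc κ)
    (hv : ∀ i, i₀ ≤ i → i ≤ M → v i ∉ Ug F σ ε ε' xc κ)
    (huv : ∀ i, i₀ ≤ i → i ≤ M → dist (v i) (u i) ≤ 3 * ℓ)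
    (huu : ∀ i, i₀ ≤ i → i < M → dist (u i) (u (i + 1)) ≤ 12 * ℓ)
    (hτ : ε' + 4 * e + ν ≤ τ) (hstart : τ < σ * (dinv F (u i₀)).im)
    (hend : ∃ j, i₀ ≤ j ∧ j ≤ M ∧ σ * (dinv F (u j)).im ≤ τ + ν)
    (hx : ∀ i, i₀ ≤ i → i ≤ M → (dinv F (u i)).re ≤ x₀) (hx0 : 0 ≤ x₀) (hτ1 : τ + ν ≤ 1)
    (hm1 : e + ν ≤ 1) (hx1 : x₀ ^ 2 < (1 - (e + ν)) ^ 2 - (τ + ν) ^ 2) :
    ∃ j, i₀ ≤ j ∧ j ≤ M ∧ (∀ i, i₀ ≤ i → i ≤ j → τ < σ * (dinv F (u i)).im) ∧
      σ * (dinv F (u j)).im ≤ τ + ν ∧ dist (dinv F (u j)) (-1) ≤ 2 * (e + ν) + 2 * (τ + ν) := by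
  classical
  obtain ⟨j, ⟨hj1, hj2, hj3⟩, hmin⟩ : ∃ j, (i₀ ≤ j ∧ j ≤ M ∧ σ * (dinv F (u j)).im ≤ τ + ν) ∧
      ∀ k < j, ¬ (i₀ ≤ k ∧ k ≤ M ∧ σ * (dinv F (u k)).im ≤ τ + ν) :=
    ⟨Nat.find hend, Nat.find_spec hend, fun k hk => Nat.find_min hend hk⟩
  have hν := H.hν
  have he := H.he
  have hlow : ∀ i, i₀ ≤ i → i ≤ j → τ < σ * (dinv F (u i)).im := by
    intro i h1 h2
    rcases h2.lt_or_eq with h | rfl
    · by_contra hcon
      push Not at hcon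
      exact hmin i h ⟨h1, by omega, by linarith⟩
    · rcases h1.lt_or_eq with h | rfl
      · obtain ⟨k, rfl⟩ : ∃ k, i = k + 1 := ⟨i - 1, by omega⟩
        have h3 := hmin k (by omega)
        have h4 : τ + ν < σ * (dinv F (u k)).im := by
          by_contra hcon
          push Not at hcon
          exact h3 ⟨by omega, by omega, hcon⟩
        have h5 := H.close (hu k (by omega) (by omega)) (hu (k + 1) (by omega) hj2)
          (huu k (by omega) (by omega))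
        have h6 := H.im_dist (w := dinv F (u k)) (w' := dinv F (u (k + 1)))
        linarith
      · exact hstart
  refine ⟨j, hj1, hj2, hlow, hj3, ?_⟩
  have hjl := hlow j hj1 le_rfl
  have hup := H.near_alt (hu j hj1 hj2) (hv j hj1 hj2) (huv j hj1 hj2)
  have hn : 1 - (e + ν) ≤ ‖dinv F (u j)‖ := by
    rcases hup with h | ⟨w, hw1, hw2, hw3⟩
    · linarith
    · have h1 := H.removed hw1 hw2
      have h2 := H.im_dist (w := dinv F (u j)) (w' := w)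
      linarith
  have hlt : ‖dinv F (u j)‖ < 1 :=
    mem_ball_zero_iff.1 (H.conf.dinv_mem (H.sub (hu j hj1 hj2)))
  have hε' := H.hε'
  exact near_neg_one H.hσ hlt hn hm1 (by linarith) hj3 hτ1 hx0 (hx j hj1 hj2) hx1

end Vale.Agent.P167.SG
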