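import Vale.Agent.P167.SG.Cls3
import Vale.Agent.P167.H756.Glue2

/-!
# P167, general `q`, SAND: the barrier, the separation and the flat side for a Loewner chain

`gate_of`: the barrier with its gate is outside of the closed polygon. `sep_of`: connected sets in the
closed polygon. `ftype_of`: positions of boundary points. `flat_lo`, `flat_up`: the flat side.
-/

set_option autoImplicit false

namespace Vale.Agent.P167.SG

open Set Metric Filter Topology ComplexConjugate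
open Vale.Agent.P153.R2.R1 (Conf dinv mb)
open Vale.Agent.P153.R2.L1 (HH)
open Vale.Agent.P164 (loewnerDomain gf Zf)
open Vale.Agent.P167.H756 (Cls FD FD_mb FD_img HConf Drv cls_FD)
open Vale.Agent.P167.H450.Out (OD Pm)

/-- The bound for the position of the base point. -/
noncomputable def ρb (Y : ℝ) : ℝ := √(1 - 4 * (3 * Y / 4) / (1 + 2 * Y) ^ 2)

theorem ρb_lt {Y : ℝ} (hY : 0 < Y) : ρb Y < 1 := by
  rw [ρb, Real.sqrt_lt' one_pos, one_pow, sub_lt_self_iff]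
  positivity

theorem pos_base {T R : ℝ} {W : ℝ → ℝ} {t Y : ℝ} (H : Drv T R W t) (hY0 : 0 < Y) (hY : 8 * R ≤ Y)
    (hY2 : 64 * T ≤ Y ^ 2) : ‖pos W t ((Y : ℂ) * Complex.I)‖ ≤ ρb Y := by
  obtain ⟨hd, h1, h2, h3⟩ := H.base hY0 hY hY2
  have e : ‖mb 1 Complex.I (Zf W (Y * Complex.I) t)‖ =
      ‖mb 1 (Zf W (Y * Complex.I) t) Complex.I‖ := by
    rw [Vale.Agent.P153.R2.R1.norm_mb norm_one, Vale.Agent.P153.R2.R1.norm_mb norm_one,
      norm_sub_rev, Complex.conj_I]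
    congr 1
    rw [← RCLike.norm_conj (Complex.I - _), map_sub, Complex.conj_conj, Complex.conj_I,
      ← norm_neg]
    congr 1
    ring
  rw [pos, e]
  exact Vale.Agent.P167.H756.norm_mb_le (by positivity) h1 h2

/-- Points of a path to the boundary. -/
theorem exists_near_bd {F : ℂ → ℂ} {D : Set ℂ} (h : Conf F D) (hb : Bornology.IsBounded D) {a : ℂ}
    (ha : ‖a‖ = 1) {ρ δ : ℝ} (hρ : 0 ≤ ρ) (hρ1 : ρ < 1) (hδ : 0 < δ) :
    ∃ t ∈ Ico ρ 1, ∃ x ∉ D, dist x (F ((t : ℂ) * a)) < δ := by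
  by_contra hcon
  push Not at hcon
  have hn : ∀ t ∈ Ico ρ 1, ((t : ℂ) * a) ∈ ball (0 : ℂ) 1 := by
    intro t ht
    rw [mem_ball_zero_iff, norm_mul, ha, mul_one, Complex.norm_real,
      Real.norm_of_nonneg (hρ.trans ht.1)]
    exact ht.2
  set A : Set ℂ := (fun t : ℝ => F ((t : ℂ) * a)) '' Ico ρ 1 with hA
  have hsub : closure A ⊆ D := by
    intro x hx
    by_contra hxD
    obtain ⟨_, ⟨t, ht, rfl⟩, hd⟩ := Metric.mem_closure_iff.1 hx δ hδ
    exact absurd hd (not_lt.2 (hcon t ht x hxD))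
  have hAD : A ⊆ D := subset_closure.trans hsub
  have hc : IsCompact (closure A) := (hb.subset hAD).isCompact_closure
  have hcd : ContinuousOn (dinv F) (closure A) := fun x hx =>
    (h.dinv_continuousAt (hsub hx)).continuousWithinAt
  have hc2 : IsCompact (dinv F '' closure A) := hc.image_of_continuousOn hcd
  have h2 : ∀ t ∈ Ico ρ 1, ((t : ℂ) * a) ∈ dinv F '' closure A := fun t ht =>
    ⟨F ((t : ℂ) * a), subset_closure ⟨t, ht, rfl⟩, h.dinv_apply (hn t ht)⟩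
  have h3 : a ∈ closure (dinv F '' closure A) := by
    have hcont : Continuous fun t : ℝ => (t : ℂ) * a := by fun_prop
    have h4 : (1 : ℝ) ∈ closure (Ico ρ 1) := by
      rw [closure_Ico hρ1.ne]; exact ⟨hρ1.le, le_rfl⟩
    have h6 : (fun t : ℝ => (t : ℂ) * a) '' Ico ρ 1 ⊆ dinv F '' closure A := by
      rintro _ ⟨t, ht, rfl⟩
      exact h2 t ht
    have h5 : (fun t : ℝ => (t : ℂ) * a) 1 ∈ closure (dinv F '' closure A) :=
      closure_mono h6 (image_closure_subset_closure_image hcont ⟨1, h4, rfl⟩)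
    simpa using h5
  rw [hc2.isClosed.closure_eq] at h3
  obtain ⟨x, hx, rfl⟩ := h3
  have := mem_ball_zero_iff.1 (h.dinv_mem (hsub hx))
  linarith

/-- The positions of the barrier near the pushed-in arc. -/
theorem yb_nr {σ ε₁ η x' x3 ν : ℝ} (hσ : |σ| = 1) (hρ : 0 < 1 - ε₁)
    (hη : 0 ≤ η) (hη1 : η ≤ 1) (hx' : 0 ≤ x') (hx1 : x' ≤ 1) (h1 : 2 * ν < ε₁)
    (h2 : 2 * ν < η * (1 - 2 * ν)) (h3 : x3 < x' * (1 - 2 * ν)) {w : ℂ}
    (hw : w ∈ Yb σ (1 - ε₁) η x') (hn : Nr2 σ ν w) : x3 < w.re := by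
  obtain ⟨ω, o1, o2, o3⟩ := hn
  have hnw : 1 - 2 * ν ≤ ‖w‖ := by
    have := norm_sub_norm_le ω w
    rw [← dist_eq_norm, dist_comm, o1] at this
    linarith
  rcases hw with (⟨x, ⟨hx0, hx2⟩, rfl⟩ | ⟨y, ⟨hy0, hy1⟩, rfl⟩) | ⟨t, ⟨ht0, ht1⟩, rfl⟩ |
    ⟨t, ⟨ht0, ht1⟩, rfl⟩
  · exfalso
    have h4 : |x| ≤ 1 - ε₁ := by
      rw [abs_le]
      exact ⟨hx0, by nlinarith⟩
    rw [norm_a1 hσ hρ.le h4] at hnw
    linarith
  · exfalso
    have h4 : |y| ≤ 1 - ε₁ := by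
      rw [abs_of_nonneg hy0]
      nlinarith
    rw [norm_a2 hσ hρ.le h4] at hnw
    linarith
  · exfalso
    have hσ2 : σ ^ 2 = 1 := by rw [← sq_abs, hσ]; norm_num
    have ht : 0 ≤ t := hρ.le.trans ht0
    have hn : ‖(t : ℂ) * a2 σ 1 η‖ = t := by
      rw [norm_mul, Complex.norm_real, Real.norm_of_nonneg ht,
        norm_a2 hσ zero_le_one (by rwa [abs_of_nonneg hη]), mul_one]
    simp only [hn] at hnw
    set w : ℂ := (t : ℂ) * a2 σ 1 η with hw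
    have h4 : |w.im - ω.im| ≤ dist w ω := by
      rw [dist_eq_norm, ← Complex.sub_im]; exact Complex.abs_im_le_norm _
    have h5 : σ * (w.im - ω.im) ≤ |w.im - ω.im| := by
      have := le_abs_self (σ * (w.im - ω.im))
      rwa [abs_mul, hσ, one_mul] at this
    have h6 : σ * w.im = η * t := by
      rw [hw]
      simp only [a2, Complex.mul_im, Complex.ofReal_re, Complex.ofReal_im, zero_mul, add_zero]
      linear_combination (t * η) * hσ2
    have h7 : σ * (w.im - ω.im) = σ * w.im - σ * ω.im := by ring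
    have h8 : η * (1 - 2 * ν) ≤ η * t := mul_le_mul_of_nonneg_left hnw hη
    linarith
  · have ht : 0 ≤ t := hρ.le.trans ht0
    have hn : ‖(t : ℂ) * a1 σ 1 x'‖ = t := by
      rw [norm_mul, Complex.norm_real, Real.norm_of_nonneg ht,
        norm_a1 hσ zero_le_one (by rwa [abs_of_nonneg hx']), mul_one]
    simp only [hn] at hnw
    simp only [a1, Complex.mul_re, Complex.ofReal_re, Complex.ofReal_im, zero_mul, sub_zero]
    have : x' * (1 - 2 * ν) ≤ x' * t := mul_le_mul_of_nonneg_left hnw hx'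
    linarith

/-- All the data of one history. -/
structure Sat {ι : Type} (T R x3 xB τ κ x' xc ε η e ν X1 X3 : ℝ) (ψ : ℂ → ℂ) (W : ℝ → ℝ)
    (t σ xb rf cg δ r₀ ρ r' ℓ s₂ : ℝ) (Gt IN : Set ℂ) (x₁ tp : ℂ) (K : ι → Set ℂ) : Prop where
  drv : Drv T R W t
  diff : DifferentiableOn ℂ ψ HH
  inj : InjOn ψ HH
  h4 : 4 * R ≤ X1
  h16 : 16 * T ≤ X1 ^ 2
  cst : Cst x3 xB τ κ x' xc ε η e ν
  flt : Flt ψ xb rf cg X1 X3 δ Gt x₁
  hst : Hst σ ν r₀ ρ r' ℓ s₂ xb rf ψ W t tp IN K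
  hℓ : 0 < ℓ
  h40 : 40 * ℓ ≤ r₀
  hδℓ : 4 * δ ≤ ℓ
  hrf : r₀ ≤ rf / 8
  hcg : 8 * ℓ < cg
  sit : Sit (FD ψ W t) σ ε (τ / 2) xc e ν (2 * r₀) ℓ (fun i => dinv (FD ψ W t) '' K i)
  nc2 : ∀ u ∈ Ug (FD ψ W t) σ ε (τ / 2) xc (fun i => dinv (FD ψ W t) '' K i),
    ∀ y ∈ ψ '' loewnerDomain W t, dist u y ≤ 12 * ℓ →
      (Nr2 σ ν (dinv (FD ψ W t) y) → x3 < (dinv (FD ψ W t) y).re) →
      Jd (ψ '' loewnerDomain W t) r₀ u y
  see : ∀ u z : ℂ, Jd (ψ '' loewnerDomain W t) ρ u z → z ∈ IN → Nr2 σ ν (dinv (FD ψ W t) u)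
  tipj : ∀ u : ℂ, TipJ (ψ '' loewnerDomain W t) r' tp u → Nr2 σ ν (dinv (FD ψ W t) u)
  nearb : ∀ u ∈ ψ '' loewnerDomain W t, x3 < (dinv (FD ψ W t) u).re → u ∈ Bf xb (rf / 4)

section

variable {T R Rd cd Y X1 X2 X3 x3 xB τ κ x' xc ε η e ν : ℝ}

/-- **Existence.** -/
theorem sat_of (hRd : 0 < Rd) (hcd : 0 < cd) (hY0 : 0 < Y) (hY : 8 * R ≤ Y)
    (hY2 : 64 * T ≤ Y ^ 2) (h4R : 4 * R ≤ X1) (h16 : 16 * T ≤ X1 ^ 2) (hX3 : 1 ≤ X3)
    (hx3 : x3 = ((2 * X3) ^ 2 - 1) / ((2 * X3) ^ 2 + 1)) (C : Cst x3 xB τ κ x' xc ε η e ν) :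
    ∃ r₁ > 0, ∀ {ι : Type} [Finite ι] {ψ : ℂ → ℂ} {W : ℝ → ℝ} {t σ xb rf cg δ r₀ ρ r' ℓ s₂ : ℝ}
      {Gt IN : Set ℂ} {x₁ tp : ℂ} {K : ι → Set ℂ}, HConf Rd cd Y ψ → Drv T R W t →
      Flt ψ xb rf cg X1 X3 δ Gt x₁ → Hst σ ν r₀ ρ r' ℓ s₂ xb rf ψ W t tp IN K → 0 < ℓ →
      r₀ ≤ r₁ → ρ ≤ r₁ → r' ≤ r₁ → s₂ ≤ r₁ → 40 * ℓ ≤ r₀ → 4 * δ ≤ ℓ → r₀ ≤ rf / 8 → 8 * ℓ < cg →
      Sat T R x3 xB τ κ x' xc ε η e ν X1 X3 ψ W t σ xb rf cg δ r₀ ρ r' ℓ s₂ Gt IN x₁ tp K := by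
  obtain ⟨r₁, h1, h2⟩ := sit_of hRd hcd hY0 hY hY2 h4R h16 hX3 hx3 C
  refine ⟨r₁, h1, ?_⟩
  intro ι _ ψ W t σ xb rf cg δ r₀ ρ r' ℓ s₂ Gt IN x₁ tp K hψ Hd HF HH' hℓ hr₀ hρ hr' hs₂ h40 hδℓ hrf
    hcg
  obtain ⟨a1, a2, a3, a4, a5⟩ := h2 hψ Hd HF HH' hℓ hr₀ hρ hr' hs₂ h40 hδℓ hrf
  exact ⟨Hd, hψ.diff, hψ.inj, h4R, h16, C, HF, HH', hℓ, h40, hδℓ, hrf, hcg, a1, a2, a3, a4, a5⟩

end

namespace Sat

variable {ι : Type} {T R x3 xB τ κ x' xc ε η e ν X1 X3 : ℝ} {ψ : ℂ → ℂ} {W : ℝ → ℝ}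
    {t σ xb rf cg δ r₀ ρ r' ℓ s₂ : ℝ} {Gt IN : Set ℂ} {x₁ tp : ℂ} {K : ι → Set ℂ}
    (H : Sat T R x3 xB τ κ x' xc ε η e ν X1 X3 ψ W t σ xb rf cg δ r₀ ρ r' ℓ s₂ Gt IN x₁ tp K)
include H

theorem img : FD ψ W t '' ball 0 1 = ψ '' loewnerDomain W t := FD_img H.drv ψ

theorem conf : Conf (FD ψ W t) (ψ '' loewnerDomain W t) := by
  rw [← H.img]; exact H.sit.conf

theorem dinv_ψ {z : ℂ} (hz : z ∈ loewnerDomain W t) : dinv (FD ψ W t) (ψ z) = pos W t z :=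
  dinv_FD H.drv H.diff H.inj hz

theorem sub_HH : ψ '' loewnerDomain W t ⊆ ψ '' HH :=
  image_mono fun _ hz => Vale.Agent.P164.im_pos_of_dom H.drv.nn hz

/-- The larger domain is at a distance `> ν` from the barrier. -/
theorem yb_far' {w w' : ℂ} (hw : w ∈ Yb σ (1 - ε / 2) η x') (hw' : w' ∈ Rr σ ε (τ / 2) xc) :
    ν < dist w w' := by
  have C := H.cst
  have hε := C.hε
  have hε1 := C.hε1
  set d : ℝ := min (ε - ε / 2) (min (τ / 2 * (1 - ε) - η) (xc * (1 - ε) - x')) with hd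
  have h1 : ν < d := lt_min C.f1 (lt_min C.f2 C.f3)
  exact h1.trans_le (yb_far H.sit.hσ (by linarith) (by linarith) C.hη.le C.hη2.le C.hx' C.hx'1.le
    (by linarith) (by linarith [C.hτ]) C.hxc0 (min_le_left _ _)
    ((min_le_right _ _).trans (min_le_left _ _)) ((min_le_right _ _).trans (min_le_right _ _))
    hw hw')

/-- **The gate.** -/
theorem gate : ∃ X : Set ℂ, Disjoint (FD ψ W t '' Yb σ (1 - ε / 2) η x' ∪ X)
    (closure (Pm ℓ (Ug (FD ψ W t) σ ε (τ / 2) xc (fun i => dinv (FD ψ W t) '' K i)))) ∧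
    IsPreconnected (FD ψ W t '' Yb σ (1 - ε / 2) η x' ∪ X) ∧ (⟨xb, -(rf / 2)⟩ : ℂ) ∈ X ∧ Gt ⊆ X ∧
    IsPreconnected X ∧ (∃ k ∈ X, |k.re - xb| < rf / 4 ∧ k.im = -(rf / 4)) ∧
    ∀ x ∈ X, ∀ u ∈ Ug (FD ψ W t) σ ε (τ / 2) xc (fun i => dinv (FD ψ W t) '' K i),
      4 * ℓ < dist x u := by
  have C := H.cst
  have hε := C.hε
  have hε1 := C.hε1
  have hν := C.hν
  have hℓ := H.hℓ
  have hδ := H.flt.hδ
  have hrf0 := H.flt.hrf
  have h40 := H.h40
  have hδℓ := H.hδℓ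
  have hrf := H.hrf
  have hcg := H.hcg
  have hσ := H.sit.hσ
  set F : ℂ → ℂ := FD ψ W t with hF
  set U : Set ℂ := Ug F σ ε (τ / 2) xc (fun i => dinv F '' K i) with hU
  set D : Set ℂ := ψ '' loewnerDomain W t with hD
  have hconf : Conf F D := H.conf
  have hUD : U ⊆ D := by rw [hD, ← H.img]; exact H.sit.sub
  have hb : Bornology.IsBounded D := by rw [hD, ← H.img]; exact H.sit.od.bdd
  have hYb : ∀ w ∈ Yb σ (1 - ε / 2) η x', w ∈ ball (0 : ℂ) 1 := fun w hw =>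
    mem_ball_zero_iff.2 (yb_mem hσ (by linarith) (by linarith) C.hη.le C.hη2.le C.hx' C.hx'1.le hw).1
  -- the end of the barrier
  obtain ⟨t₁, ht₁, q, hq, hqd⟩ := exists_near_bd hconf hb (a := a1 σ 1 x')
    (norm_a1 hσ zero_le_one (by rw [abs_of_nonneg C.hx']; exact C.hx'1.le))
    (ρ := max (1 - ε / 2) (1 - 2 * ν)) (le_max_of_le_left (by linarith))
    (max_lt (by linarith) (by linarith)) hδ
  have ht0 : 1 - ε / 2 ≤ t₁ := (le_max_left _ _).trans ht₁.1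
  have ht2 : 1 - 2 * ν ≤ t₁ := (le_max_right _ _).trans ht₁.1
  have ht3 := ht₁.2
  set w₁ : ℂ := (t₁ : ℂ) * a1 σ 1 x' with hw₁
  have hw₁Y : w₁ ∈ Yb σ (1 - ε / 2) η x' := Or.inr (Or.inr ⟨t₁, ⟨ht0, ht3⟩, rfl⟩)
  have hw₁b := hYb w₁ hw₁Y
  set y₁ : ℂ := F w₁ with hy₁
  have hy₁D : y₁ ∈ D := by rw [hD, ← H.img]; exact ⟨w₁, hw₁b, rfl⟩
  have hpy : dinv F y₁ = w₁ := hconf.dinv_apply hw₁b
  have hre : x3 < (dinv F y₁).re := by
    rw [hpy, hw₁]
    simp only [a1, Complex.mul_re, Complex.ofReal_re, Complex.ofReal_im, zero_mul, sub_zero]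
    have h1 := C.s4
    have h2 : x' * (1 - 2 * ν) ≤ x' * t₁ := mul_le_mul_of_nonneg_left ht2 C.hx'
    linarith
  have hyb : y₁ ∈ Bf xb (rf / 4) := H.nearb y₁ hy₁D hre
  have hy_lo : -δ < y₁.im := H.flt.low' H.drv H.h4 H.h16 hy₁D (bf_mono (by linarith) hyb)
  have hy_up : y₁.im ≤ 2 * δ := by
    by_contra hcon
    push Not at hcon
    apply hq
    have h1 : q ∈ Bf xb rf := bf_mono (show rf / 4 + δ ≤ rf by linarith)
      (bf_near hyb (show dist y₁ q ≤ δ by rw [dist_comm]; exact hqd.le))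
    have h2 : δ < q.im := by
      have h3 := Complex.abs_im_le_norm (y₁ - q)
      rw [← dist_eq_norm, Complex.sub_im, dist_comm] at h3
      have := le_abs_self (y₁.im - q.im)
      linarith
    exact H.flt.dom_of H.drv H.h4 H.h16 (H.flt.up q h1 h2) h1
  -- points of `U` below `y₁`
  have hkey : ∀ u ∈ U, ∀ x : ℂ, x.re = y₁.re → x.im ≤ y₁.im → -(rf / 2) ≤ x.im →
      4 * ℓ < dist x u := by
    intro u hu x hx1 hx2 hx3
    by_contra hcon
    push Not at hcon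
    have h3 := Complex.abs_im_le_norm (x - u)
    have h4 := Complex.abs_re_le_norm (x - u)
    rw [← dist_eq_norm, Complex.sub_im] at h3
    rw [← dist_eq_norm, Complex.sub_re] at h4
    have h3' := abs_le.1 (h3.trans hcon)
    have h4' := abs_le.1 (h4.trans hcon)
    have hyb1 := abs_lt.1 hyb.1
    have hyb2 := abs_lt.1 hyb.2
    have hub : u ∈ Bf xb rf := by
      refine ⟨abs_lt.2 ⟨by linarith, by linarith⟩, abs_lt.2 ⟨by linarith, by linarith⟩⟩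
    have h5 := H.flt.low' H.drv H.h4 H.h16 (hUD hu) hub
    have h6 : dist u y₁ ≤ 12 * ℓ := by
      rw [dist_eq_norm]
      refine (Complex.norm_le_abs_re_add_abs_im _).trans ?_
      rw [Complex.sub_re, Complex.sub_im]
      have h7 : |u.re - y₁.re| ≤ 4 * ℓ := abs_le.2 ⟨by linarith, by linarith⟩
      have h8 : |u.im - y₁.im| ≤ 5 * ℓ := abs_le.2 ⟨by linarith, by linarith⟩
      linarith
    have h7 := H.nc2 u hu y₁ hy₁D h6 fun _ => hre
    have h8 := H.sit.close' (H.sit.sub hu) (v := y₁) (by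
      rw [H.img]; exact jd_mono h7 (by linarith))
    have h9 := H.yb_far' hw₁Y (gd_sub (H.sit.pos_gd hu)).1
    rw [← hF, hpy, dist_comm] at h8
    linarith
  -- the gate
  set c₁ : ℂ := ⟨y₁.re, -(rf / 2)⟩ with hc₁
  set c₂ : ℂ := ⟨xb, -(rf / 2)⟩ with hc₂
  set X : Set ℂ := segment ℝ y₁ c₁ ∪ (segment ℝ c₁ c₂ ∪ Gt) with hX
  have hyb1 := abs_lt.1 hyb.1
  have hyb2 := abs_lt.1 hyb.2
  have hX1 : IsPreconnected (F '' Yb σ (1 - ε / 2) η x') :=
    (conn_Yb (by linarith) (by linarith) C.hη.le (by linarith [C.hx'])).image _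
      (hconf.diff.continuousOn.mono hYb)
  have hXc : IsPreconnected (F '' Yb σ (1 - ε / 2) η x' ∪ X) := by
    refine IsPreconnected.union y₁ ⟨w₁, hw₁Y, rfl⟩ (Or.inl (left_mem_segment ℝ _ _)) hX1 ?_
    refine IsPreconnected.union c₁ (right_mem_segment ℝ _ _) (Or.inl (left_mem_segment ℝ _ _))
      (convex_segment _ _).isPreconnected ?_
    exact IsPreconnected.union c₂ (right_mem_segment ℝ _ _) H.flt.g0
      (convex_segment _ _).isPreconnected H.flt.gc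
  have hfar : ∀ x ∈ X, ∀ u ∈ U, 4 * ℓ < dist x u := by
    rintro x (hx | hx | hx) u hu
    · obtain ⟨a, b, ha, hb, hab, rfl⟩ := hx
      have ha' : a = 1 - b := by linarith
      apply hkey u hu
      · simp only [Complex.add_re, Complex.smul_re, smul_eq_mul, hc₁]
        rw [ha']; ring
      · simp only [Complex.add_im, Complex.smul_im, smul_eq_mul, hc₁]
        rw [ha']; nlinarith
      · simp only [Complex.add_im, Complex.smul_im, smul_eq_mul, hc₁]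
        rw [ha']; nlinarith
    · obtain ⟨a, b, ha, hb, hab, rfl⟩ := hx
      have ha' : a = 1 - b := by linarith
      set x : ℂ := a • c₁ + b • c₂ with hx
      have hx1 : x.im = -(rf / 2) := by
        simp only [hx, Complex.add_im, Complex.smul_im, smul_eq_mul, hc₁, hc₂]
        rw [ha']; ring
      have hx2 : x.re - xb = a * (y₁.re - xb) := by
        simp only [hx, Complex.add_re, Complex.smul_re, smul_eq_mul, hc₁, hc₂]
        rw [ha']; ring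
      have hx3 : |x.re - xb| ≤ rf / 4 := by
        rw [hx2, abs_mul, abs_of_nonneg ha]
        have h1 : a ≤ 1 := by linarith
        have h2 : |y₁.re - xb| ≤ rf / 4 := hyb.1.le
        nlinarith [abs_nonneg (y₁.re - xb)]
      by_contra hcon
      push Not at hcon
      have h3 := Complex.abs_im_le_norm (x - u)
      have h4 := Complex.abs_re_le_norm (x - u)
      rw [← dist_eq_norm, Complex.sub_im] at h3
      rw [← dist_eq_norm, Complex.sub_re] at h4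
      have h3' := abs_le.1 (h3.trans hcon)
      have h4' := abs_le.1 (h4.trans hcon)
      have hx4 := abs_le.1 hx3
      have hub : u ∈ Bf xb rf :=
        ⟨abs_lt.2 ⟨by linarith, by linarith⟩, abs_lt.2 ⟨by linarith, by linarith⟩⟩
      have h5 := H.flt.low' H.drv H.h4 H.h16 (hUD hu) hub
      linarith
    · have := H.flt.gfar x hx u (H.sub_HH (hUD hu))
      linarith
  have hXp : IsPreconnected X := by
    refine IsPreconnected.union c₁ (right_mem_segment ℝ _ _) (Or.inl (left_mem_segment ℝ _ _))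
      (convex_segment _ _).isPreconnected ?_
    exact IsPreconnected.union c₂ (right_mem_segment ℝ _ _) H.flt.g0
      (convex_segment _ _).isPreconnected H.flt.gc
  have hk : (⟨y₁.re, -(rf / 4)⟩ : ℂ) ∈ segment ℝ y₁ c₁ := by
    have hden : 0 < y₁.im + rf / 2 := by linarith
    set a : ℝ := (rf / 4) / (y₁.im + rf / 2) with ha
    have ha1 : a * (y₁.im + rf / 2) = rf / 4 := div_mul_cancel₀ _ hden.ne'
    have ha0 : 0 ≤ a := by positivity
    have ha2 : a ≤ 1 := by rw [ha, div_le_one hden]; linarith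
    refine ⟨a, 1 - a, ha0, by linarith, by ring, ?_⟩
    apply Complex.ext
    · simp only [Complex.add_re, Complex.smul_re, smul_eq_mul, hc₁]
      ring
    · simp only [Complex.add_im, Complex.smul_im, smul_eq_mul, hc₁]
      linarith
  refine ⟨X, ?_, hXc, Or.inr (Or.inl (right_mem_segment ℝ _ _)), fun x hx => Or.inr (Or.inr hx),
    hXp, ⟨_, Or.inl hk, hyb.1, rfl⟩, hfar⟩
  refine H.sit.barrier hYb hXc (fun w hw w' hw' => H.yb_far' hw hw') ?_ hfar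
    (x₁ := x₁) (Or.inr (Or.inr H.flt.g1)) ?_
  · rintro _ ⟨w, hw, rfl⟩ u hu hd
    have hwb := hYb w hw
    have hyD : F w ∈ D := by rw [hD, ← H.img]; exact ⟨w, hwb, rfl⟩
    have hd' : dist u (F w) ≤ 12 * ℓ := by rw [dist_comm]; linarith
    have h1 := H.nc2 u hu (F w) hyD hd' fun hn => by
      rw [← hF, hconf.dinv_apply hwb] at hn ⊢
      exact yb_nr hσ (by linarith) C.hη.le C.hη2.le C.hx' C.hx'1.le C.s1 C.s3 C.s4 hw hn
    rw [H.img]
    exact jd_symm h1 hd' (by linarith)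
  · intro u hu
    have := H.flt.g2 u (H.sub_HH (hUD hu))
    linarith

end Sat

end Vale.Agent.P167.SG
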