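import Vale.Agent.P167.SG.Cls6

/-!
# P167, general `q`, SAND: the connected sets seen from the base (the plane part of the seam)

`Te`: the teeth are obstacles near the line. `Sat.s3_box`: seen points which see the side are near the
target. `Sat.s4_im`: at a seen boundary point which is also the corner of a point off the polygon, the
position is on the lower side.
-/

set_option autoImplicit false

namespace Vale.Agent.P167.SG

open Set Metric Filter Topology ComplexConjugate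
open Vale.Agent.P153.R2.R1 (Conf dinv mb)
open Vale.Agent.P153.R2.L1 (HH)
open Vale.Agent.P164 (loewnerDomain gf Zf)
open Vale.Agent.P167.H756 (Cls FD FD_mb FD_img HConf Drv cls_FD)
open Vale.Agent.P167.H450 Vale.Agent.P167.H450.Out

/-- The teeth (`te`) are in the box of radius `r₂`, the other obstacles are off the box of radius
`r₃`. -/
structure Te {ι : Type} (D : Set ℂ) (K : ι → Set ℂ) (te : ι → Prop) (xb r₂ r₃ : ℝ) : Prop where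
  lt : r₂ < r₃
  cl : ∀ i, ¬ te i → closure (K i) ∩ D ⊆ K i
  off : ∀ i, ¬ te i → Disjoint (K i) (Bf xb r₃)
  low : ∀ i, te i → ∀ z ∈ K i, z ∈ Bf xb r₂ ∧ z.im ≤ 0

namespace Sat

variable {ι : Type} {T R x3 xB τ κ x' xc ε η e ν X1 X3 : ℝ} {ψ : ℂ → ℂ} {W : ℝ → ℝ}
    {t σ xb rf cg δ r₀ ρ r' ℓ s₂ : ℝ} {Gt IN : Set ℂ} {x₁ tp : ℂ} {K : ι → Set ℂ}
    (H : Sat T R x3 xB τ κ x' xc ε η e ν X1 X3 ψ W t σ xb rf cg δ r₀ ρ r' ℓ s₂ Gt IN x₁ tp K)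
include H

/-- The connected sets seen from the base: `E` is in the closed polygon or near `U` (a tip). -/
theorem s3_box {E : Set ℂ} (hE : IsPreconnected E) (hED : E ⊆ ψ '' loewnerDomain W t)
    (hEP : ∀ x ∈ E,
      x ∈ closure (Pm ℓ (Ug (FD ψ W t) σ ε (τ / 2) xc (fun i => dinv (FD ψ W t) '' K i))) ∨
      ∃ u ∈ Ug (FD ψ W t) σ ε (τ / 2) xc (fun i => dinv (FD ψ W t) '' K i), dist x u ≤ 12 * ℓ)
    (hne : (E ∩ FD ψ W t '' ball 0 (1 - ε / 2)).Nonempty) {y z : ℂ} (hy : y ∈ E) (hz : z ∈ IN)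
    (hj : Jd (ψ '' loewnerDomain W t) ρ y z) : y ∈ Bf xb (rf / 4) :=
  H.near_see (H.sep' hE hED hEP hne hy) (hED hy) hz hj

/-- Points of seen sets, joined sets included, are in the component of the base. -/
theorem s4_dd [Finite ι] (h8 : 8 * R ≤ X3) (h64 : 64 * T ≤ X3 ^ 2) (hκ : κ ≤ 1 - ρb X3)
    {te : ι → Prop} {r₂ r₃ : ℝ} (hr₃ : r₃ ≤ rf) (hr₃' : rf / 4 ≤ r₃)
    (HT : Te (ψ '' loewnerDomain W t) K te xb r₂ r₃)
    {E C : Set ℂ} (hE : IsPreconnected E) (hED : E ⊆ ψ '' loewnerDomain W t)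
    (hEO : ∀ i, ¬ te i → Disjoint E (K i)) (hne : (E ∩ FD ψ W t '' ball 0 (1 - e)).Nonempty)
    (hC : IsPreconnected C) (hCD : C ⊆ ψ '' loewnerDomain W t)
    (hCO : ∀ i, ¬ te i → Disjoint C (K i)) {y v : ℂ} (hyE : y ∈ E) (hyC : y ∈ C) (hvC : v ∈ C)
    (hvT : 0 < v.im ∨ v ∉ Bf xb r₃) :
    dinv (FD ψ W t) v ∈ Dd (fun i => dinv (FD ψ W t) '' K i) := by
  refine H.dd_of_seen h8 h64 hκ HT.lt hr₃ hr₃' HT.cl HT.off HT.low
    (IsPreconnected.union y hyE hyC hE hC) (union_subset hED hCD) ?_ ?_ (Or.inr hvC) hvT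
  · intro i hi
    exact (hEO i hi).union_left (hCO i hi)
  · obtain ⟨x, hx, hx2⟩ := hne
    exact ⟨x, Or.inl hx, hx2⟩

/-- **The position at a seen boundary point.** -/
theorem s4_im [Finite ι] (h8 : 8 * R ≤ X3) (h64 : 64 * T ≤ X3 ^ 2) (hκ : κ ≤ 1 - ρb X3)
    {te : ι → Prop} {r₂ r₃ : ℝ} (hr₃ : r₃ ≤ rf) (hr₃' : rf / 4 ≤ r₃)
    (HT : Te (ψ '' loewnerDomain W t) K te xb r₂ r₃)
    {E C : Set ℂ} (hE : IsPreconnected E) (hED : E ⊆ ψ '' loewnerDomain W t)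
    (hEO : ∀ i, ¬ te i → Disjoint E (K i))
    (hEP : ∀ x ∈ E,
      x ∈ closure (Pm ℓ (Ug (FD ψ W t) σ ε (τ / 2) xc (fun i => dinv (FD ψ W t) '' K i))) ∨
      ∃ u ∈ Ug (FD ψ W t) σ ε (τ / 2) xc (fun i => dinv (FD ψ W t) '' K i), dist x u ≤ 12 * ℓ)
    (hne : (E ∩ FD ψ W t '' ball 0 (1 - ε / 2)).Nonempty)
    (hne' : (E ∩ FD ψ W t '' ball 0 (1 - e)).Nonempty)
    (hC : IsPreconnected C) (hCD : C ⊆ ψ '' loewnerDomain W t)
    (hCO : ∀ i, ¬ te i → Disjoint C (K i)) (hCs : ∀ x ∈ C, ∀ y ∈ C, dist x y ≤ 3 * ℓ)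
    {y v u : ℂ} (hyE : y ∈ E) (hyC : y ∈ C) (hvC : v ∈ C) (hvT : 0 < v.im ∨ v ∉ Bf xb r₃)
    (hvP : v ∉ Pm ℓ (Ug (FD ψ W t) σ ε (τ / 2) xc (fun i => dinv (FD ψ W t) '' K i)))
    (hu : u ∈ Ug (FD ψ W t) σ ε (τ / 2) xc (fun i => dinv (FD ψ W t) '' K i))
    (hd : dist u y ≤ 12 * ℓ) : σ * (dinv (FD ψ W t) u).im ≤ τ :=
  H.ftype2 hu (hED hyE) (H.sep' hE hED hEP hne hyE) hd hC hCD hCs hyC hvC hvP
    (H.s4_dd h8 h64 hκ hr₃ hr₃' HT hE hED hEO hne' hC hCD hCO hyE hyC hvC hvT)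

/-- The core is seen. -/
theorem core_of_pos {x : ℂ} (hx : x ∈ ψ '' loewnerDomain W t) {a : ℝ}
    (h : ‖dinv (FD ψ W t) x‖ < a) : x ∈ FD ψ W t '' ball 0 a :=
  ⟨dinv (FD ψ W t) x, mem_ball_zero_iff.2 h, H.conf.apply_dinv hx⟩

end Sat

end Vale.Agent.P167.SG
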