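import Vale.Agent.P167.SG.Pos

/-!
# P167, general `q`, SAND: the barrier

`Yb`: the boundary, inside the disc, of the larger domain `Rr σ ε₁ η x'`; it is connected and has a
positive distance from `Rr σ ε ε' xc`. `Sit.barrier`: its image is outside of the closed polygon if it
is joined to infinity far from `U`. `Sit.sep`: connected subsets of `D` in the closed polygon stay in
the image of the larger domain.
-/

set_option autoImplicit false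

namespace Vale.Agent.P167.SG

open Set Metric
open Vale.Agent.P153.R2.R1 (Conf dinv)
open Vale.Agent.P167.H450.Out (OD Pm preconn_thick not_mem_Pm_of_gate)

variable {σ ε ε' xc ε₁ η x' ρ : ℝ} {w w' : ℂ}

/-- The lower arc. -/
noncomputable def a1 (σ ρ x : ℝ) : ℂ := ⟨x, -(σ * √(ρ ^ 2 - x ^ 2))⟩

/-- The small upper arc on the left. -/
noncomputable def a2 (σ ρ y : ℝ) : ℂ := ⟨-√(ρ ^ 2 - y ^ 2), σ * y⟩

/-- The barrier. -/
noncomputable def Yb (σ ρ η x' : ℝ) : Set ℂ :=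
  ((a1 σ ρ '' Icc (-ρ) (x' * ρ)) ∪ (a2 σ ρ '' Icc 0 (η * ρ))) ∪
    (((fun t : ℝ => (t : ℂ) * a2 σ 1 η) '' Ico ρ 1) ∪ ((fun t : ℝ => (t : ℂ) * a1 σ 1 x') '' Ico ρ 1))

theorem cont_a1 : Continuous (a1 σ ρ) := by
  have : a1 σ ρ = fun x : ℝ => (x : ℂ) + ((-(σ * √(ρ ^ 2 - x ^ 2)) : ℝ) : ℂ) * Complex.I := by
    funext x
    apply Complex.ext <;> simp [a1]
  rw [this]
  fun_prop

theorem cont_a2 : Continuous (a2 σ ρ) := by
  have : a2 σ ρ = fun y : ℝ => ((-√(ρ ^ 2 - y ^ 2) : ℝ) : ℂ) + ((σ * y : ℝ) : ℂ) * Complex.I := by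
    funext x
    apply Complex.ext <;> simp [a2]
  rw [this]
  fun_prop

theorem a1_smul (hρ : 0 ≤ ρ) (x : ℝ) : a1 σ ρ (x * ρ) = (ρ : ℂ) * a1 σ 1 x := by
  have h : √(ρ ^ 2 - (x * ρ) ^ 2) = ρ * √(1 ^ 2 - x ^ 2) := by
    have : ρ ^ 2 - (x * ρ) ^ 2 = ρ ^ 2 * (1 ^ 2 - x ^ 2) := by ring
    rw [this, Real.sqrt_mul (by positivity), Real.sqrt_sq hρ]
  apply Complex.ext
  · simp [a1]; ring
  · simp only [a1, Complex.mul_im, Complex.ofReal_re, Complex.ofReal_im, zero_mul, add_zero]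
    rw [h]; ring

theorem a2_smul (hρ : 0 ≤ ρ) (y : ℝ) : a2 σ ρ (y * ρ) = (ρ : ℂ) * a2 σ 1 y := by
  have h : √(ρ ^ 2 - (y * ρ) ^ 2) = ρ * √(1 ^ 2 - y ^ 2) := by
    have : ρ ^ 2 - (y * ρ) ^ 2 = ρ ^ 2 * (1 ^ 2 - y ^ 2) := by ring
    rw [this, Real.sqrt_mul (by positivity), Real.sqrt_sq hρ]
  apply Complex.ext
  · simp only [a2, Complex.mul_re, Complex.ofReal_re, Complex.ofReal_im, zero_mul, sub_zero]
    rw [h]; ring
  · simp [a2]; ring

theorem conn_Yb (hρ : 0 ≤ ρ) (hρ1 : ρ < 1) (hη : 0 ≤ η) (hx' : -1 ≤ x') :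
    IsPreconnected (Yb σ ρ η x') := by
  have c1 : IsPreconnected (a1 σ ρ '' Icc (-ρ) (x' * ρ)) :=
    isPreconnected_Icc.image _ cont_a1.continuousOn
  have c2 : IsPreconnected (a2 σ ρ '' Icc 0 (η * ρ)) :=
    isPreconnected_Icc.image _ cont_a2.continuousOn
  have c3 : IsPreconnected ((fun t : ℝ => (t : ℂ) * a2 σ 1 η) '' Ico ρ 1) :=
    isPreconnected_Ico.image _ (by fun_prop)
  have c4 : IsPreconnected ((fun t : ℝ => (t : ℂ) * a1 σ 1 x') '' Ico ρ 1) :=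
    isPreconnected_Ico.image _ (by fun_prop)
  have c12 : IsPreconnected ((a1 σ ρ '' Icc (-ρ) (x' * ρ)) ∪ (a2 σ ρ '' Icc 0 (η * ρ))) := by
    refine IsPreconnected.union (a1 σ ρ (-ρ)) ⟨_, ⟨le_rfl, by nlinarith⟩, rfl⟩
      ⟨0, ⟨le_rfl, by positivity⟩, ?_⟩ c1 c2
    apply Complex.ext
    · simp [a1, a2, Real.sqrt_sq hρ]
    · simp [a1, a2]
  have c123 : IsPreconnected (((a1 σ ρ '' Icc (-ρ) (x' * ρ)) ∪ (a2 σ ρ '' Icc 0 (η * ρ))) ∪
      ((fun t : ℝ => (t : ℂ) * a2 σ 1 η) '' Ico ρ 1)) := by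
    refine IsPreconnected.union (a2 σ ρ (η * ρ)) (Or.inr ⟨_, ⟨by positivity, le_rfl⟩, rfl⟩)
      ⟨ρ, ⟨le_rfl, hρ1⟩, ?_⟩ c12 c3
    rw [a2_smul hρ]
  have e : Yb σ ρ η x' = (((a1 σ ρ '' Icc (-ρ) (x' * ρ)) ∪ (a2 σ ρ '' Icc 0 (η * ρ))) ∪
      ((fun t : ℝ => (t : ℂ) * a2 σ 1 η) '' Ico ρ 1)) ∪
        ((fun t : ℝ => (t : ℂ) * a1 σ 1 x') '' Ico ρ 1) := by
    rw [Yb, union_assoc, union_assoc, union_assoc]
  rw [e]
  refine IsPreconnected.union (a1 σ ρ (x' * ρ)) (Or.inl (Or.inl ⟨_, ⟨by nlinarith, le_rfl⟩, rfl⟩))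
    ⟨ρ, ⟨le_rfl, hρ1⟩, ?_⟩ c123 c4
  rw [a1_smul hρ]

/-- The relative boundary of the larger domain is in the barrier. -/
theorem frontier_sub (hσ : |σ| = 1) (hρ : 0 < 1 - ε₁) (hη : 0 < η) (hη1 : η < 1)
    (hx' : 0 ≤ x') (hx1 : x' ^ 2 + η ^ 2 < 1) (hw : ‖w‖ < 1)
    (hf : w ∈ frontier (Rr σ ε₁ η x')) : w ∈ Yb σ (1 - ε₁) η x' := by
  have hσ2 : σ ^ 2 = 1 := by rw [← sq_abs, hσ]; norm_num
  have hn : w.re ^ 2 + w.im ^ 2 = ‖w‖ ^ 2 := by
    rw [← Complex.normSq_eq_norm_sq, Complex.normSq_apply]; ring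
  have h1 : w ∉ Rr σ ε₁ η x' := fun h => (disjoint_frontier_iff_isOpen.2 isOpen_rr).le_bot ⟨hf, h⟩
  have hc : w ∈ {w : ℂ | ‖w‖ ≤ 1 - ε₁ ∨ η * ‖w‖ ≤ σ * w.im ∨ x' * ‖w‖ ≤ w.re} := by
    have hcl : IsClosed {w : ℂ | ‖w‖ ≤ 1 - ε₁ ∨ η * ‖w‖ ≤ σ * w.im ∨ x' * ‖w‖ ≤ w.re} := by
      refine IsClosed.union (isClosed_le continuous_norm continuous_const) (IsClosed.union ?_ ?_)
      · exact isClosed_le (continuous_const.mul continuous_norm)
          (continuous_const.mul Complex.continuous_im)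
      · exact isClosed_le (continuous_const.mul continuous_norm) Complex.continuous_re
    refine closure_minimal ?_ hcl (frontier_subset_closure hf)
    rintro z ⟨-, h | h | h⟩
    · exact Or.inl h.le
    · exact Or.inr (Or.inl h.le)
    · exact Or.inr (Or.inr h.le)
  have h2 : ¬ ‖w‖ < 1 - ε₁ := fun h => h1 ⟨hw, Or.inl h⟩
  have h3 : ¬ η * ‖w‖ < σ * w.im := fun h => h1 ⟨hw, Or.inr (Or.inl h)⟩
  have h4 : ¬ x' * ‖w‖ < w.re := fun h => h1 ⟨hw, Or.inr (Or.inr h)⟩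
  push Not at h2 h3 h4
  have hw0 : 0 < ‖w‖ := by linarith
  have hsi : (σ * w.im) ^ 2 = w.im ^ 2 := by rw [mul_pow, hσ2, one_mul]
  have hwi : w.im = σ * (σ * w.im) := by rw [← mul_assoc, ← sq, hσ2, one_mul]
  rcases hc with h | h | h
  · -- on the circle of radius `1 - ε₁`
    have e : ‖w‖ = 1 - ε₁ := le_antisymm h h2
    left
    by_cases hs : σ * w.im ≤ 0
    · left
      refine ⟨w.re, ⟨?_, by rw [← e]; exact h4⟩, ?_⟩
      · have := Complex.abs_re_le_norm w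
        rw [abs_le] at this
        rw [← e]; exact this.1
      · apply Complex.ext
        · rfl
        · have h5 : √((1 - ε₁) ^ 2 - w.re ^ 2) = -(σ * w.im) := by
            rw [← e, ← hn, add_sub_cancel_left, ← hsi, Real.sqrt_sq_eq_abs, abs_of_nonpos hs]
          simp only [a1]
          rw [h5]
          linarith [hwi]
    · push Not at hs
      right
      refine ⟨σ * w.im, ⟨hs.le, by rw [← e]; exact h3⟩, ?_⟩
      have h5 : w.re < 0 := by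
        by_contra hcon
        push Not at hcon
        have h6 : w.re ^ 2 ≤ (x' * ‖w‖) ^ 2 := pow_le_pow_left₀ hcon h4 2
        have h7 : (σ * w.im) ^ 2 ≤ (η * ‖w‖) ^ 2 := pow_le_pow_left₀ hs.le h3 2
        rw [hsi] at h7
        have h8 : ‖w‖ ^ 2 ≤ (x' ^ 2 + η ^ 2) * ‖w‖ ^ 2 := by nlinarith
        have h9 : 0 < ‖w‖ ^ 2 := by positivity
        nlinarith
      apply Complex.ext
      · have h6 : √((1 - ε₁) ^ 2 - (σ * w.im) ^ 2) = -w.re := by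
          rw [← e, hsi, ← hn, add_sub_cancel_right, Real.sqrt_sq_eq_abs, abs_of_neg h5]
        simp only [a2]
        rw [h6]; ring
      · simp only [a2]
        exact hwi.symm
  · -- the first segment
    have e : σ * w.im = η * ‖w‖ := le_antisymm h3 h
    right; left
    refine ⟨‖w‖, ⟨h2, hw⟩, ?_⟩
    have h5 : w.re < 0 := by
      by_contra hcon
      push Not at hcon
      have h6 : w.re ^ 2 ≤ (x' * ‖w‖) ^ 2 := pow_le_pow_left₀ hcon h4 2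
      have h7 : w.im ^ 2 = (η * ‖w‖) ^ 2 := by rw [← hsi, e]
      have h9 : 0 < ‖w‖ ^ 2 := by positivity
      nlinarith
    have h6 : ‖w‖ * √(1 ^ 2 - η ^ 2) = -w.re := by
      have h7 : w.re ^ 2 = ‖w‖ ^ 2 * (1 ^ 2 - η ^ 2) := by
        have : w.im ^ 2 = (η * ‖w‖) ^ 2 := by rw [← hsi, e]
        nlinarith
      rw [← Real.sqrt_sq hw0.le, ← Real.sqrt_mul (by positivity), ← h7, Real.sqrt_sq_eq_abs,
        abs_of_neg h5]
    apply Complex.ext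
    · simp only [a2, Complex.mul_re, Complex.ofReal_re, Complex.ofReal_im, zero_mul, sub_zero]
      linarith
    · simp only [a2, Complex.mul_im, Complex.ofReal_re, Complex.ofReal_im, zero_mul, add_zero]
      rw [hwi, e]; ring
  · have e : w.re = x' * ‖w‖ := le_antisymm h4 h
    right; right
    refine ⟨‖w‖, ⟨h2, hw⟩, ?_⟩
    have h7 : w.im ^ 2 = ‖w‖ ^ 2 * (1 ^ 2 - x' ^ 2) := by
      rw [e] at hn
      nlinarith
    have h5 : σ * w.im < 0 := by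
      by_contra hcon
      push Not at hcon
      have h6 : (σ * w.im) ^ 2 ≤ (η * ‖w‖) ^ 2 := pow_le_pow_left₀ hcon h3 2
      rw [hsi, h7] at h6
      have h9 : 0 < ‖w‖ ^ 2 := by positivity
      nlinarith
    have h6 : ‖w‖ * √(1 ^ 2 - x' ^ 2) = -(σ * w.im) := by
      rw [← Real.sqrt_sq hw0.le, ← Real.sqrt_mul (by positivity), ← h7, ← hsi,
        Real.sqrt_sq_eq_abs, abs_of_neg h5]
    apply Complex.ext
    · simp only [a1, Complex.mul_re, Complex.ofReal_re, Complex.ofReal_im, zero_mul, sub_zero]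
      linarith
    · simp only [a1, Complex.mul_im, Complex.ofReal_re, Complex.ofReal_im, zero_mul, add_zero]
      calc ‖w‖ * -(σ * √(1 ^ 2 - x' ^ 2)) = -(σ * (‖w‖ * √(1 ^ 2 - x' ^ 2))) := by ring
        _ = σ * (σ * w.im) := by rw [h6]; ring
        _ = w.im := hwi.symm

theorem norm_a1 (hσ : |σ| = 1) (hρ : 0 ≤ ρ) {x : ℝ} (hx : |x| ≤ ρ) : ‖a1 σ ρ x‖ = ρ := by
  have hσ2 : σ ^ 2 = 1 := by rw [← sq_abs, hσ]; norm_num
  have h0 : 0 ≤ ρ ^ 2 - x ^ 2 := by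
    have := sq_le_sq' (by linarith [neg_abs_le x, hx]) (le_of_abs_le hx)
    linarith
  rw [← Real.sqrt_sq (norm_nonneg (a1 σ ρ x)), ← Complex.normSq_eq_norm_sq, Complex.normSq_apply]
  have : (a1 σ ρ x).re * (a1 σ ρ x).re + (a1 σ ρ x).im * (a1 σ ρ x).im = ρ ^ 2 := by
    simp only [a1]
    have := Real.sq_sqrt h0
    nlinarith
  rw [this, Real.sqrt_sq hρ]

theorem norm_a2 (hσ : |σ| = 1) (hρ : 0 ≤ ρ) {x : ℝ} (hx : |x| ≤ ρ) : ‖a2 σ ρ x‖ = ρ := by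
  have hσ2 : σ ^ 2 = 1 := by rw [← sq_abs, hσ]; norm_num
  have h0 : 0 ≤ ρ ^ 2 - x ^ 2 := by
    have := sq_le_sq' (by linarith [neg_abs_le x, hx]) (le_of_abs_le hx)
    linarith
  rw [← Real.sqrt_sq (norm_nonneg (a2 σ ρ x)), ← Complex.normSq_eq_norm_sq, Complex.normSq_apply]
  have : (a2 σ ρ x).re * (a2 σ ρ x).re + (a2 σ ρ x).im * (a2 σ ρ x).im = ρ ^ 2 := by
    simp only [a2]
    have := Real.sq_sqrt h0
    nlinarith
  rw [this, Real.sqrt_sq hρ]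

/-- The points of the barrier. -/
theorem yb_mem (hσ : |σ| = 1) (hρ : 0 < 1 - ε₁) (hε₁ : 0 < ε₁) (hη : 0 ≤ η) (hη1 : η ≤ 1)
    (hx' : 0 ≤ x') (hx1 : x' ≤ 1) (hw : w ∈ Yb σ (1 - ε₁) η x') :
    ‖w‖ < 1 ∧ 1 - ε₁ ≤ ‖w‖ ∧ σ * w.im ≤ η * ‖w‖ ∧ w.re ≤ x' * ‖w‖ := by
  have hσ2 : σ ^ 2 = 1 := by rw [← sq_abs, hσ]; norm_num
  rcases hw with (⟨x, ⟨hx0, hx2⟩, rfl⟩ | ⟨y, ⟨hy0, hy1⟩, rfl⟩) | ⟨t, ⟨ht0, ht1⟩, rfl⟩ |
    ⟨t, ⟨ht0, ht1⟩, rfl⟩
  · have h1 : |x| ≤ 1 - ε₁ := by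
      rw [abs_le]
      exact ⟨hx0, by nlinarith⟩
    rw [norm_a1 hσ hρ.le h1]
    refine ⟨by linarith, le_rfl, ?_, hx2⟩
    simp only [a1]
    have := Real.sqrt_nonneg ((1 - ε₁) ^ 2 - x ^ 2)
    nlinarith
  · have h1 : |y| ≤ 1 - ε₁ := by
      rw [abs_of_nonneg hy0]
      nlinarith
    rw [norm_a2 hσ hρ.le h1]
    refine ⟨by linarith, le_rfl, ?_, ?_⟩
    · simp only [a2]
      nlinarith
    · simp only [a2]
      have := Real.sqrt_nonneg ((1 - ε₁) ^ 2 - y ^ 2)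
      nlinarith
  · have ht : 0 ≤ t := hρ.le.trans ht0
    have hn : ‖(t : ℂ) * a2 σ 1 η‖ = t := by
      rw [norm_mul, Complex.norm_real, Real.norm_of_nonneg ht,
        norm_a2 hσ zero_le_one (by rwa [abs_of_nonneg hη]), mul_one]
    simp only [hn]
    refine ⟨ht1, ht0, ?_, ?_⟩
    · simp only [a2, Complex.mul_im, Complex.ofReal_re, Complex.ofReal_im, zero_mul, add_zero]
      have : σ * (t * (σ * η)) = η * t := by linear_combination (t * η) * hσ2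
      rw [this]
    · simp only [a2, Complex.mul_re, Complex.ofReal_re, Complex.ofReal_im, zero_mul, sub_zero]
      have := Real.sqrt_nonneg (1 ^ 2 - η ^ 2)
      nlinarith
  · have ht : 0 ≤ t := hρ.le.trans ht0
    have hn : ‖(t : ℂ) * a1 σ 1 x'‖ = t := by
      rw [norm_mul, Complex.norm_real, Real.norm_of_nonneg ht,
        norm_a1 hσ zero_le_one (by rwa [abs_of_nonneg hx']), mul_one]
    simp only [hn]
    refine ⟨ht1, ht0, ?_, ?_⟩
    · simp only [a1, Complex.mul_im, Complex.ofReal_re, Complex.ofReal_im, zero_mul, add_zero]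
      have h3 := Real.sqrt_nonneg (1 ^ 2 - x' ^ 2)
      have : σ * (t * -(σ * √(1 ^ 2 - x' ^ 2))) = -(t * √(1 ^ 2 - x' ^ 2)) := by
        linear_combination (-(t * √(1 ^ 2 - x' ^ 2))) * hσ2
      rw [this]
      have : 0 ≤ t * √(1 ^ 2 - x' ^ 2) := by positivity
      have : 0 ≤ η * t := by positivity
      linarith
    · simp only [a1, Complex.mul_re, Complex.ofReal_re, Complex.ofReal_im, zero_mul, sub_zero]
      nlinarith

/-- The distance of the barrier from the smaller domain. -/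
theorem yb_far {δ : ℝ} (hσ : |σ| = 1) (hρ : 0 < 1 - ε₁) (hε₁ : 0 < ε₁) (hη : 0 ≤ η) (hη1 : η ≤ 1)
    (hx' : 0 ≤ x') (hx1 : x' ≤ 1) (hε : ε ≤ 1) (hε' : 0 ≤ ε') (hxc : 0 ≤ xc) (h1 : δ ≤ ε - ε₁)
    (h2 : δ ≤ ε' * (1 - ε) - η) (h3 : δ ≤ xc * (1 - ε) - x') (hw : w ∈ Yb σ (1 - ε₁) η x')
    (hw' : w' ∈ Rr σ ε ε' xc) : δ ≤ dist w w' := by
  obtain ⟨a1, a2, a3, a4⟩ := yb_mem hσ hρ hε₁ hη hη1 hx' hx1 hw
  by_cases hn : ‖w'‖ < 1 - ε
  · have := norm_sub_norm_le w w'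
    rw [← dist_eq_norm] at this
    linarith
  push Not at hn
  rcases hw'.2 with h | h | h
  · linarith
  · have h4 : |w.im - w'.im| ≤ dist w w' := by
      rw [dist_eq_norm, ← Complex.sub_im]; exact Complex.abs_im_le_norm _
    have h5 : σ * (w'.im - w.im) ≤ |w.im - w'.im| := by
      have := le_abs_self (σ * (w'.im - w.im))
      rw [abs_mul, hσ, one_mul, abs_sub_comm] at this
      exact this
    have h6 : ε' * (1 - ε) ≤ ε' * ‖w'‖ := mul_le_mul_of_nonneg_left hn hε'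
    have h7 : η * ‖w‖ ≤ η := by nlinarith
    have h8 : σ * (w'.im - w.im) = σ * w'.im - σ * w.im := by ring
    linarith
  · have h4 : |w.re - w'.re| ≤ dist w w' := by
      rw [dist_eq_norm, ← Complex.sub_re]; exact Complex.abs_re_le_norm _
    have h5 : w'.re - w.re ≤ |w.re - w'.re| := by
      rw [abs_sub_comm]; exact le_abs_self _
    have h6 : xc * (1 - ε) ≤ xc * ‖w'‖ := mul_le_mul_of_nonneg_left hn hxc
    have h7 : x' * ‖w‖ ≤ x' := by nlinarith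
    linarith

variable {ι : Type*} {F : ℂ → ℂ} {e ν r ℓ : ℝ} {κ : ι → Set ℂ}

/-- **The barrier is outside of the closed polygon.** -/
theorem Sit.barrier (H : Sit F σ ε ε' xc e ν r ℓ κ) {Y X : Set ℂ}
    (hY : Y ⊆ ball 0 1) (hX : IsPreconnected (F '' Y ∪ X))
    (hYR : ∀ w ∈ Y, ∀ w' ∈ Rr σ ε ε' xc, ν < dist w w')
    (hj : ∀ y ∈ F '' Y, ∀ u ∈ Ug F σ ε ε' xc κ, dist y u ≤ 4 * ℓ → Jd (F '' ball 0 1) r y u)
    (hXfar : ∀ x ∈ X, ∀ u ∈ Ug F σ ε ε' xc κ, 4 * ℓ < dist x u) {x₁ : ℂ} (hx₁ : x₁ ∈ X)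
    (hout : ∀ u ∈ Ug F σ ε ε' xc κ, u.re + 4 * ℓ < x₁.re) :
    Disjoint (F '' Y ∪ X) (closure (Pm ℓ (Ug F σ ε ε' xc κ))) := by
  have hℓ := H.od.hℓ
  have hfar : ∀ x ∈ F '' Y ∪ X, ∀ u ∈ Ug F σ ε ε' xc κ, 4 * ℓ < dist x u := by
    rintro x (hx | hx) u hu
    · by_contra hcon
      push Not at hcon
      have hxD : x ∈ F '' ball 0 1 := image_mono hY hx
      refine H.not_far hxD hu (hj x hx u hu hcon) fun w' hw' => ?_
      obtain ⟨w, hw, rfl⟩ := hx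
      rw [H.conf.dinv_apply (hY hw)]
      exact hYR w hw w' hw'
    · exact hXfar x hx u hu
  rw [disjoint_left]
  intro x hx hxc
  rw [mem_closure_iff_nhds] at hxc
  obtain ⟨z, hz1, hz2⟩ := hxc _ (ball_mem_nhds x (half_pos hℓ))
  have hth := preconn_thick hX (half_pos hℓ)
  refine not_mem_Pm_of_gate hℓ hth ?_ (x₁ := x₁) (mem_biUnion (Or.inr hx₁)
    (mem_ball_self (half_pos hℓ))) ?_ (mem_biUnion hx hz1) hz2
  · intro y hy u hu
    simp only [mem_iUnion, exists_prop] at hy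
    obtain ⟨y', hy', hyy⟩ := hy
    have h1 := hfar y' hy' u hu
    have h2 := dist_triangle y' y u
    rw [mem_ball, dist_comm] at hyy
    linarith
  · intro u hu
    have := hout u hu
    linarith

/-- **Separation.** -/
theorem Sit.sep (H : Sit F σ ε ε' xc e ν r ℓ κ) {ε₁ η x' : ℝ} (hρ : 0 < 1 - ε₁)
    (hη : 0 < η) (hη1 : η < 1) (hx' : 0 ≤ x') (hx1 : x' ^ 2 + η ^ 2 < 1) {E : Set ℂ}
    (hE : IsPreconnected E) (hED : E ⊆ F '' ball 0 1)
    (hEY : Disjoint (F '' Yb σ (1 - ε₁) η x') E)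
    (hmeet : (E ∩ F '' Rr σ ε₁ η x').Nonempty) : E ⊆ F '' Rr σ ε₁ η x' := by
  have hcont : ContinuousOn (dinv F) E := fun x hx =>
    (H.conf.dinv_continuousAt (hED hx)).continuousWithinAt
  have h1 : dinv F '' E ⊆ Rr σ ε₁ η x' := by
    refine P153.R2.R1.subset_of_frontier isOpen_rr (hE.image _ hcont) ?_ ?_
    · obtain ⟨_, hx, w, hw, rfl⟩ := hmeet
      refine ⟨w, ⟨F w, hx, H.conf.dinv_apply (rr_sub hw)⟩, hw⟩
    · rw [disjoint_left]
      rintro _ ⟨x, hx, rfl⟩ hf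
      have h2 := frontier_sub H.hσ hρ hη hη1 hx' hx1
        (mem_ball_zero_iff.1 (H.conf.dinv_mem (hED hx))) hf
      exact disjoint_left.1 hEY ⟨_, h2, H.conf.apply_dinv (hED hx)⟩ hx
  intro x hx
  exact ⟨dinv F x, h1 ⟨x, hx, rfl⟩, H.conf.apply_dinv (hED hx)⟩

end Vale.Agent.P167.SG
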