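import Vale.Agent.P167.SG.Col
import Vale.Agent.P167.SG.Bar
import Vale.Agent.P167.H756.Small

/-!
# P167, general `q`, SAND: positions for the domains of a Loewner chain

`pos W t z = mb 1 I (Zf W z t)`: the position of `ψ z`. Bounds of the real part of the position in
terms of `‖z‖`.
-/

set_option autoImplicit false

namespace Vale.Agent.P167.SG

open Set Metric Filter Topology ComplexConjugate
open Vale.Agent.P153.R2.R1 (Conf dinv mb norm_mb_lt)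
open Vale.Agent.P153.R2.L1 (HH IsHydro inv mem_HH isOpen_HH convex_HH)
open Vale.Agent.P164 (loewnerDomain gf Zf)
open Vale.Agent.P167.H756 (Cls FD FD_mb FD_img HConf Drv cls_FD mapsTo_inv)
open Vale.Agent.P167.H947 (flow flow_gf)

variable {T R : ℝ} {W : ℝ → ℝ} {t : ℝ}

/-- The position. -/
noncomputable def pos (W : ℝ → ℝ) (t : ℝ) (z : ℂ) : ℂ := mb 1 Complex.I (Zf W z t)

theorem pos_norm (H : Drv T R W t) {z : ℂ} (hz : z ∈ loewnerDomain W t) : ‖pos W t z‖ < 1 :=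
  norm_mb_lt norm_one (by simp) (Vale.Agent.P164.Zf_im_pos H.nn hz)

theorem conf_FD (H : Drv T R W t) {ψ : ℂ → ℂ} (hd : DifferentiableOn ℂ ψ HH) (hi : InjOn ψ HH) :
    Conf (FD ψ W t) (FD ψ W t '' ball 0 1) := by
  refine ⟨?_, ?_, rfl⟩
  · exact (Vale.Agent.P167.H756.Ps_diff H hd).comp (fun w hw =>
      (Vale.Agent.P153.R2.R1.imb_differentiableAt
        (Vale.Agent.P167.H756.ball_ne_one hw)).differentiableWithinAt) fun w hw =>
      Vale.Agent.P153.R2.R1.imb_im_pos norm_one (by simp) (mem_ball_zero_iff.1 hw)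
  · intro w hw w' hw' e
    have h3 := Vale.Agent.P167.H756.Ps_inj H hi
      (Vale.Agent.P153.R2.R1.imb_im_pos norm_one (by simp) (mem_ball_zero_iff.1 hw))
      (Vale.Agent.P153.R2.R1.imb_im_pos norm_one (by simp) (mem_ball_zero_iff.1 hw')) e
    have h4 := congrArg (mb 1 Complex.I) h3
    rwa [(Vale.Agent.P153.R2.R1.mb_imb norm_one (by simp)
      (Vale.Agent.P167.H756.ball_ne_one hw)).2, (Vale.Agent.P153.R2.R1.mb_imb norm_one (by simp)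
      (Vale.Agent.P167.H756.ball_ne_one hw')).2] at h4

theorem dinv_FD (H : Drv T R W t) {ψ : ℂ → ℂ} (hd : DifferentiableOn ℂ ψ HH) (hi : InjOn ψ HH)
    {z : ℂ} (hz : z ∈ loewnerDomain W t) : dinv (FD ψ W t) (ψ z) = pos W t z := by
  have h := (conf_FD H hd hi).dinv_apply (z := pos W t z)
    (mem_ball_zero_iff.2 (pos_norm H hz))
  rwa [pos, FD_mb H ψ hz] at h

/-- The real part of the position. -/
theorem re_mb (ζ : ℂ) (hζ : 0 ≤ ζ.im) :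
    (mb 1 Complex.I ζ).re = (‖ζ‖ ^ 2 - 1) / ‖ζ + Complex.I‖ ^ 2 := by
  have h0 : ζ + Complex.I ≠ 0 := Vale.Agent.P167.H756.add_I_ne hζ
  rw [mb, Complex.conj_I, sub_neg_eq_add, one_mul, Complex.div_re, Complex.sq_norm,
    Complex.sq_norm, ← add_div]
  congr 1
  rw [Complex.normSq_apply]
  simp
  ring

theorem re_mb_le {ζ : ℂ} {M : ℝ} (hζ : 0 ≤ ζ.im) (hM : 1 ≤ M) (h : ‖ζ‖ ≤ M) :
    (mb 1 Complex.I ζ).re ≤ (M ^ 2 - 1) / (M ^ 2 + 1) := by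
  rw [re_mb ζ hζ]
  have h1 : ‖ζ‖ ^ 2 + 1 ≤ ‖ζ + Complex.I‖ ^ 2 := by
    rw [Complex.sq_norm, Complex.sq_norm, Complex.normSq_apply, Complex.normSq_apply]
    simp only [Complex.add_re, Complex.add_im, Complex.I_re, Complex.I_im]
    nlinarith
  have h2 : 0 < ‖ζ‖ ^ 2 + 1 := by positivity
  rw [div_le_div_iff₀ (by linarith) (by positivity)]
  have h3 : ‖ζ‖ ^ 2 ≤ M ^ 2 := by gcongr
  have h4 : 1 ≤ M ^ 2 := by nlinarith
  have h5 : (M ^ 2 - 1) * (‖ζ‖ ^ 2 + 1) ≤ (M ^ 2 - 1) * ‖ζ + Complex.I‖ ^ 2 :=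
    mul_le_mul_of_nonneg_left h1 (by linarith)
  nlinarith

theorem le_re_mb {ζ : ℂ} {m : ℝ} (hζ : 0 ≤ ζ.im) (hm : 1 ≤ m) (h : m ≤ ‖ζ‖) :
    (m - 1) / (m + 1) ≤ (mb 1 Complex.I ζ).re := by
  rw [re_mb ζ hζ]
  have h1 : ‖ζ + Complex.I‖ ≤ ‖ζ‖ + 1 := Vale.Agent.P167.H756.norm_add_I_le ζ
  have h2 : 0 < ‖ζ + Complex.I‖ :=
    norm_pos_iff.2 (Vale.Agent.P167.H756.add_I_ne hζ)
  have h3 : ‖ζ + Complex.I‖ ^ 2 ≤ (‖ζ‖ + 1) ^ 2 := by gcongr
  have hn := norm_nonneg ζ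
  rw [div_le_div_iff₀ (by linarith) (by positivity)]
  calc (m - 1) * ‖ζ + Complex.I‖ ^ 2 ≤ (m - 1) * (‖ζ‖ + 1) ^ 2 :=
        mul_le_mul_of_nonneg_left h3 (by linarith)
    _ ≤ (‖ζ‖ ^ 2 - 1) * (m + 1) := by nlinarith

/-- The bounds of the centred flow far away. -/
theorem zf_far (H : Drv T R W t) {X1 : ℝ} (h0 : 0 < X1) (h1 : 4 * R ≤ X1) (h2 : 16 * T ≤ X1 ^ 2)
    {z : ℂ} (hz : z ∈ HH) (hX : X1 ≤ ‖z‖) : z ∈ loewnerDomain W t ∧ ‖z‖ / 2 ≤ ‖Zf W z t‖ ∧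
      ‖Zf W z t‖ ≤ 2 * ‖z‖ := by
  have hz0 : 0 < ‖z‖ := h0.trans_le hX
  have h3 : 16 * T ≤ ‖z‖ ^ 2 := h2.trans (by gcongr)
  have hd := H.dom hz (h1.trans hX) h3
  have h4 := H.far hz0 (h1.trans hX) h3
  have e : Zf W z t = flow W t z - W t := by
    rw [flow_gf H.nn H.cont.continuousOn hd, Vale.Agent.P164.Zf_eq]
  refine ⟨hd, by rw [e]; exact h4.2.2.2, ?_⟩
  rw [e]
  have h5 := H.bdd t ⟨H.nn, le_rfl⟩
  calc ‖flow W t z - W t‖ = ‖(flow W t z - z) + z - W t‖ := by congr 1; ring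
    _ ≤ ‖flow W t z - z‖ + ‖z‖ + ‖(W t : ℂ)‖ :=
      (norm_sub_le _ _).trans (by gcongr; exact norm_add_le _ _)
    _ ≤ ‖z‖ / 4 + ‖z‖ + R := by
      rw [Complex.norm_real, Real.norm_eq_abs]
      gcongr
      exact h4.2.2.1
    _ ≤ 2 * ‖z‖ := by linarith

/-- The part of the half-plane outside of a disc is connected. -/
theorem conn_out {M : ℝ} (hM : 0 < M) : IsPreconnected {ζ : ℂ | 0 < ζ.im ∧ M < ‖ζ‖} := by
  have hc : Convex ℝ {w : ℂ | Real.log M < w.re ∧ 0 < w.im ∧ w.im < Real.pi} := by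
    have e : {w : ℂ | Real.log M < w.re ∧ 0 < w.im ∧ w.im < Real.pi} =
        {w : ℂ | Real.log M < w.re} ∩ ({w : ℂ | 0 < w.im} ∩ {w : ℂ | w.im < Real.pi}) := by
      ext w; simp
    rw [e]
    exact (convex_halfSpace_re_gt _).inter ((convex_halfSpace_im_gt _).inter
      (convex_halfSpace_im_lt _))
  have h := hc.isPreconnected.image Complex.exp Complex.continuous_exp.continuousOn
  convert h using 1
  ext ζ
  constructor
  · rintro ⟨h1, h2⟩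
    have hne : ζ ≠ 0 := by rintro rfl; simp at h1
    refine ⟨Complex.log ζ, ⟨?_, ?_, ?_⟩, Complex.exp_log hne⟩
    · rw [Complex.log_re]
      exact Real.log_lt_log hM h2
    · rw [Complex.log_im]
      rcases (Complex.arg_nonneg_iff.2 h1.le).lt_or_eq with h | h
      · exact h
      · exfalso
        have := (Complex.arg_eq_zero_iff.1 h.symm).2
        linarith
    · rw [Complex.log_im]
      rcases (Complex.arg_le_pi ζ).lt_or_eq with h | h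
      · exact h
      · exfalso
        have := (Complex.arg_eq_pi_iff.1 h).2
        linarith
  · rintro ⟨w, ⟨h1, h2, h3⟩, rfl⟩
    refine ⟨?_, ?_⟩
    · rw [Complex.exp_im]
      have := Real.sin_pos_of_pos_of_lt_pi h2 h3
      positivity
    · rw [Complex.norm_exp]
      exact (Real.log_lt_iff_lt_exp hM).1 h1

/-- Points with a large coordinate are far. -/
theorem far_inv (H : Drv T R W t) {X1 X3 : ℝ} (h0 : 0 < X1) (h1 : 4 * R ≤ X1)
    (h2 : 16 * T ≤ X1 ^ 2) (h3 : X1 ≤ X3) {z : ℂ} (hz : z ∈ loewnerDomain W t)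
    (h : 2 * X3 < ‖Zf W z t‖) : X3 < ‖z‖ := by
  have hX3 : 0 < X3 := h0.trans_le h3
  have hyd := Vale.Agent.P153.R2.STEP.gf_isHydro H.cont H.nn
  set g : ℂ → ℂ := fun ζ => inv (HH \ loewnerDomain W t) (fun z => gf W z t) (ζ + W t) with hg
  have hgc : ContinuousOn (fun ζ => ‖g ζ‖) {ζ : ℂ | 0 < ζ.im ∧ 2 * X3 < ‖ζ‖} := by
    refine continuous_norm.comp_continuousOn ?_
    refine hyd.inv_diff.continuousOn.comp (by fun_prop) ?_
    rintro ζ ⟨hζ, -⟩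
    rw [mem_HH, Complex.add_im, Complex.ofReal_im, add_zero]
    exact hζ
  have hne : ∀ ζ ∈ {ζ : ℂ | 0 < ζ.im ∧ 2 * X3 < ‖ζ‖}, ‖g ζ‖ ≠ X3 := by
    rintro ζ ⟨hζ, hζ2⟩ he
    obtain ⟨m1, m2⟩ := mapsTo_inv H (show ζ ∈ HH from hζ)
    have hm : g ζ ∈ HH := Vale.Agent.P164.im_pos_of_dom H.nn m1
    have h4 := (zf_far H h0 h1 h2 hm (by rw [he]; exact h3)).2.2
    have h5 : Zf W (g ζ) t = ζ := m2
    rw [h5, he] at h4
    linarith
  -- a far point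
  set S : ℝ := 4 * X3 + 1 with hS
  set zS : ℂ := (S : ℂ) * Complex.I with hzS
  have hS0 : 0 < S := by positivity
  have hzn : ‖zS‖ = S := by
    rw [hzS, norm_mul, Complex.norm_I, mul_one, Complex.norm_real, Real.norm_of_nonneg hS0.le]
  have hzH : zS ∈ HH := by rw [mem_HH, hzS]; simpa using hS0
  obtain ⟨s1, s2, -⟩ := zf_far H h0 h1 h2 hzH (by rw [hzn, hS]; linarith)
  rw [hzn] at s2
  have s3 : Zf W zS t ∈ {ζ : ℂ | 0 < ζ.im ∧ 2 * X3 < ‖ζ‖} :=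
    ⟨Vale.Agent.P164.Zf_im_pos H.nn s1, by rw [hS] at s2; linarith⟩
  have ginv : ∀ z ∈ loewnerDomain W t, g (Zf W z t) = z := by
    intro z hz
    have e : Zf W z t + (W t : ℂ) = gf W z t := rfl
    rw [hg]
    simp only
    rw [e]
    exact hyd.inv_g (z := z) (by rw [Vale.Agent.P153.R2.STEP.dom_compl H.nn]; exact hz)
  have hzm : Zf W z t ∈ {ζ : ℂ | 0 < ζ.im ∧ 2 * X3 < ‖ζ‖} :=
    ⟨Vale.Agent.P164.Zf_im_pos H.nn hz, h⟩
  by_contra hcon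
  push Not at hcon
  have h6 := (conn_out (M := 2 * X3) (by positivity)).intermediate_value hzm s3 hgc
  rw [ginv z hz, ginv zS s1] at h6
  obtain ⟨ζ, hζ, hζe⟩ := h6 ⟨hcon, by rw [hzn, hS]; linarith⟩
  exact hne ζ hζ hζe

/-- Positions with a large real part. -/
theorem far_of_re (H : Drv T R W t) {X1 X3 : ℝ} (h0 : 0 < X1) (h1 : 4 * R ≤ X1)
    (h2 : 16 * T ≤ X1 ^ 2) (h3 : X1 ≤ X3) (h4 : 1 ≤ X3) {z : ℂ} (hz : z ∈ loewnerDomain W t)
    (h : ((2 * X3) ^ 2 - 1) / ((2 * X3) ^ 2 + 1) < (pos W t z).re) : X3 < ‖z‖ := by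
  apply far_inv H h0 h1 h2 h3 hz
  by_contra hcon
  push Not at hcon
  have := re_mb_le (Vale.Agent.P164.Zf_im_pos H.nn hz).le (by linarith) hcon
  exact absurd h (not_lt.2 this)

/-- Positions of far points. -/
theorem re_of_far (H : Drv T R W t) {X1 X2 : ℝ} (h0 : 0 < X1) (h1 : 4 * R ≤ X1)
    (h2 : 16 * T ≤ X1 ^ 2) (h3 : X1 ≤ X2) (h4 : 2 ≤ X2) {z : ℂ} (hz : z ∈ HH) (h : X2 ≤ ‖z‖) :
    (X2 / 2 - 1) / (X2 / 2 + 1) ≤ (pos W t z).re := by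
  obtain ⟨s1, s2, -⟩ := zf_far H h0 h1 h2 hz (h3.trans h)
  exact le_re_mb (Vale.Agent.P164.Zf_im_pos H.nn s1).le (by linarith) (by linarith)

end Vale.Agent.P167.SG
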