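import Vale.Agent.P167.SG.Cls4

/-!
# P167, general `q`, SAND: separation and flat side

`Sat.sep`: connected subsets of the domain in the closed polygon have positions in the larger domain.
`Sat.near_see`, `Sat.near_tip`: their points which see the side or the tip are near the target.
`Sat.ftype`: positions of boundary points. `Sat.flat_lo`, `Sat.flat_up`: the flat side.
-/

set_option autoImplicit false

namespace Vale.Agent.P167.SG

open Set Metric Filter Topology ComplexConjugate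
open Vale.Agent.P153.R2.R1 (Conf dinv mb)
open Vale.Agent.P153.R2.L1 (HH)
open Vale.Agent.P164 (loewnerDomain gf Zf)
open Vale.Agent.P167.H756 (Cls FD FD_mb FD_img HConf Drv cls_FD)
open Vale.Agent.P167.H450.Out (OD Pm)

namespace Sat

variable {ι : Type} {T R x3 xB τ κ x' xc ε η e ν X1 X3 : ℝ} {ψ : ℂ → ℂ} {W : ℝ → ℝ}
    {t σ xb rf cg δ r₀ ρ r' ℓ s₂ : ℝ} {Gt IN : Set ℂ} {x₁ tp : ℂ} {K : ι → Set ℂ}
    (H : Sat T R x3 xB τ κ x' xc ε η e ν X1 X3 ψ W t σ xb rf cg δ r₀ ρ r' ℓ s₂ Gt IN x₁ tp K)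
include H

/-- **Separation.** -/
theorem sep {E : Set ℂ} (hE : IsPreconnected E) (hED : E ⊆ ψ '' loewnerDomain W t)
    (hEP : E ⊆ closure (Pm ℓ (Ug (FD ψ W t) σ ε (τ / 2) xc (fun i => dinv (FD ψ W t) '' K i))))
    (hne : (E ∩ FD ψ W t '' ball 0 (1 - ε / 2)).Nonempty) {y : ℂ} (hy : y ∈ E) :
    dinv (FD ψ W t) y ∈ Rr σ (ε / 2) η x' := by
  have C := H.cst
  have hε := C.hε
  have hε1 := C.hε1
  obtain ⟨X, hX, -⟩ := H.gate
  have h1 := H.sit.sep (ε₁ := ε / 2) (by linarith) C.hη C.hη2 C.hx' C.hη1 hE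
    (by rw [H.img]; exact hED) (hX.mono subset_union_left hEP) (by
      obtain ⟨x, hx, w, hw, rfl⟩ := hne
      exact ⟨_, hx, w, ⟨by have := mem_ball_zero_iff.1 hw; linarith,
        Or.inl (mem_ball_zero_iff.1 hw)⟩, rfl⟩)
  obtain ⟨w, hw, rfl⟩ := h1 hy
  rwa [H.conf.dinv_apply (rr_sub hw)]

/-- The positions in the larger domain near the pushed-in arc. -/
theorem re_of_nr {w : ℂ} (hw : w ∈ Rr σ (ε / 2) η x') (hn : Nr2 σ ν w) : x3 < w.re := by
  obtain ⟨ω, o1, o2, o3⟩ := hn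
  have C := H.cst
  exact re_of_see H.sit.hσ o1 o2 o3 C.s1.le C.hη.le C.s3 C.hx' C.s4 hw

/-- **Points which see the side are near the target.** -/
theorem near_see {y z : ℂ} (hy : dinv (FD ψ W t) y ∈ Rr σ (ε / 2) η x')
    (hyD : y ∈ ψ '' loewnerDomain W t) (hz : z ∈ IN) (hj : Jd (ψ '' loewnerDomain W t) ρ y z) :
    y ∈ Bf xb (rf / 4) :=
  H.nearb y hyD (H.re_of_nr hy (H.see y z hj hz))

/-- **Points which see the tip are near the target.** -/
theorem near_tip {y : ℂ} (hy : dinv (FD ψ W t) y ∈ Rr σ (ε / 2) η x')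
    (hyD : y ∈ ψ '' loewnerDomain W t) (hj : TipJ (ψ '' loewnerDomain W t) r' tp y) :
    y ∈ Bf xb (rf / 4) :=
  H.nearb y hyD (H.re_of_nr hy (H.tipj y hj))

/-- (NC2) for the points of the larger domain. -/
theorem nc2' {u y : ℂ}
    (hu : u ∈ Ug (FD ψ W t) σ ε (τ / 2) xc (fun i => dinv (FD ψ W t) '' K i))
    (hyD : y ∈ ψ '' loewnerDomain W t) (hy : dinv (FD ψ W t) y ∈ Rr σ (ε / 2) η x')
    (hd : dist u y ≤ 12 * ℓ) : Jd (ψ '' loewnerDomain W t) r₀ u y :=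
  H.nc2 u hu y hyD hd fun hn => H.re_of_nr hy hn

/-- **Boundary points which are seen from the base.** -/
theorem ftype [Finite ι] {u y : ℂ}
    (hu : u ∈ Ug (FD ψ W t) σ ε (τ / 2) xc (fun i => dinv (FD ψ W t) '' K i))
    (hyP : y ∉ Pm ℓ (Ug (FD ψ W t) σ ε (τ / 2) xc (fun i => dinv (FD ψ W t) '' K i)))
    (hyD : y ∈ ψ '' loewnerDomain W t) (hy : dinv (FD ψ W t) y ∈ Rr σ (ε / 2) η x')
    (hyd : dinv (FD ψ W t) y ∈ Dd (fun i => dinv (FD ψ W t) '' K i)) (hd : dist u y ≤ 12 * ℓ) :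
    σ * (dinv (FD ψ W t) u).im ≤ τ := by
  have h1 := H.nc2' hu hyD hy hd
  have h2 := H.sit.close' (H.sit.sub hu) (v := y) (by
    rw [H.img]; exact jd_mono h1 (by have := H.h40; have := H.hℓ; linarith))
  have h3 := H.sit.ftype hyP (by rw [H.img]; exact hyD) hyd h2
  have := H.cst.g1
  have := H.cst.hν
  linarith

/-- The polygon is above the line. -/
theorem flat_lo {z : ℂ} (hz : z ∈ Bf xb (rf / 2)) (hz2 : z.im ≤ 0) :
    z ∉ Ug (FD ψ W t) σ ε (τ / 2) xc (fun i => dinv (FD ψ W t) '' K i) := by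
  intro hu
  have hD : z ∈ ψ '' loewnerDomain W t := by rw [← H.img]; exact H.sit.sub hu
  obtain ⟨i, hi⟩ := H.hst.teeth z hD hz hz2
  exact (gd_sub (H.sit.pos_gd hu)).2
    (mem_iUnion.2 ⟨i, subset_closure (mem_image_of_mem (dinv (FD ψ W t)) hi)⟩)

/-- A domain in the disc. -/
theorem isOpen_img {C : Set ℂ} (hC : IsOpen C) (hCD : C ⊆ ψ '' loewnerDomain W t) :
    IsOpen (dinv (FD ψ W t) '' C) := by
  have h := H.conf
  have e : dinv (FD ψ W t) '' C = ball 0 1 ∩ FD ψ W t ⁻¹' C := by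
    ext w
    constructor
    · rintro ⟨y, hy, rfl⟩
      exact ⟨h.dinv_mem (hCD hy), by rw [mem_preimage, h.apply_dinv (hCD hy)]; exact hy⟩
    · rintro ⟨hw, hw2⟩
      exact ⟨FD ψ W t w, hw2, h.dinv_apply hw⟩
  rw [e]
  exact h.diff.continuousOn.isOpen_inter_preimage isOpen_ball hC

/-- **The flat side.** -/
theorem flat_up [Finite ι] {X2 rc : ℝ} (h8 : 8 * R ≤ X3) (h64 : 64 * T ≤ X3 ^ 2)
    (hκ : κ ≤ 1 - ρb X3) (hrc : rc ≤ rf / 2) (hX2 : X1 ≤ X2) (hX22 : 2 ≤ X2)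
    (hxB : xB ≤ (X2 / 2 - 1) / (X2 / 2 + 1))
    (hfar : ∀ z ∈ HH, ψ z ∈ Bf xb rc → X2 ≤ ‖z‖) {z : ℂ} (hz : z ∈ Bf xb rc)
    (hz2 : δ < z.im) :
    z ∈ Ug (FD ψ W t) σ ε (τ / 2) xc (fun i => dinv (FD ψ W t) '' K i) := by
  have C := H.cst
  have hε := C.hε
  have hν := C.hν
  have he := C.he
  have hℓ := H.hℓ
  have hδ := H.flt.hδ
  have hδℓ := H.hδℓ
  have h40 := H.h40
  have hrf0 := H.flt.hrf
  have hrf := H.hrf
  have hX30 : 0 < X3 := H.flt.hX1.trans_le H.flt.hX3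
  set F : ℂ → ℂ := FD ψ W t with hF
  set D : Set ℂ := ψ '' loewnerDomain W t with hD
  have hconf : Conf F D := H.conf
  -- the upper half of the box
  set C₀ : Set ℂ := {w | w ∈ Bf xb (rf / 2) ∧ δ < w.im} with hC₀
  have hCc : Convex ℝ C₀ := by
    have e1 : C₀ = {w : ℂ | w.re < xb + rf / 2} ∩ {w | xb - rf / 2 < w.re} ∩
        {w | δ < w.im} ∩ {w | w.im < rf / 2} := by
      ext w
      simp only [hC₀, Bf, mem_ofPred_eq, mem_inter_iff, abs_lt]
      constructor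
      · rintro ⟨⟨⟨h1, h2⟩, h3, h4⟩, h5⟩
        exact ⟨⟨⟨by linarith, by linarith⟩, h5⟩, h4⟩
      · rintro ⟨⟨⟨h1, h2⟩, h3⟩, h4⟩
        exact ⟨⟨⟨by linarith, by linarith⟩, by linarith, h4⟩, h3⟩
    rw [e1]
    exact (((convex_halfSpace_re_lt _).inter (convex_halfSpace_re_gt _)).inter
      (convex_halfSpace_im_gt _)).inter (convex_halfSpace_im_lt _)
  have hCo : IsOpen C₀ := by
    have e1 : C₀ = {w : ℂ | |w.re - xb| < rf / 2} ∩ ({w | |w.im| < rf / 2} ∩ {w | δ < w.im}) := by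
      ext w
      simp only [hC₀, Bf, mem_ofPred_eq, mem_inter_iff, and_assoc]
    rw [e1]
    refine (isOpen_lt ?_ continuous_const).inter ((isOpen_lt ?_ continuous_const).inter
      (isOpen_lt continuous_const Complex.continuous_im))
    · exact (Complex.continuous_re.sub continuous_const).abs
    · exact Complex.continuous_im.abs
  have hCD : C₀ ⊆ D := fun w hw =>
    H.flt.dom_of H.drv H.h4 H.h16 (H.flt.up w (bf_mono (by linarith) hw.1) hw.2)
      (bf_mono (by linarith) hw.1)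
  have hCN : Disjoint (dinv F '' C₀) (Nb fun i => dinv F '' K i) := by
    rw [Nb, disjoint_iUnion_right]
    intro i
    refine Disjoint.closure_right ?_ (H.isOpen_img hCo hCD)
    rw [disjoint_left]
    rintro _ ⟨x, hx, rfl⟩ ⟨y, hy, hyx⟩
    have hyD := H.hst.ksub i hy
    have : y = x := by
      rw [← hconf.apply_dinv hyD, hyx, hconf.apply_dinv (hCD hx)]
    rw [this] at hy
    have := H.hst.kbox i x hy hx.1
    linarith [hx.2]
  -- the deep point
  have hI : ((X3 : ℂ) * Complex.I) ∈ HH := by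
    show 0 < ((X3 : ℂ) * Complex.I).im
    simpa using hX30
  have hnI : ‖(X3 : ℂ) * Complex.I‖ = X3 := by
    rw [norm_mul, Complex.norm_I, mul_one, Complex.norm_real, Real.norm_of_nonneg hX30.le]
  have hdI := (H.drv.base hX30 h8 h64).1
  have hpI := pos_base H.drv hX30 h8 h64
  set xs : ℂ := ψ ((X3 : ℂ) * Complex.I) with hxs
  have hxsD : xs ∈ D := ⟨_, hdI, rfl⟩
  have hxsp : dinv F xs = pos W t ((X3 : ℂ) * Complex.I) := H.dinv_ψ hdI
  have hxsb : xs ∈ Bf xb (rf / 4) := H.flt.near _ hI (by rw [hnI])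
  have hg2 := C.g2
  have hxsn : ‖dinv F xs‖ < 1 - e := by rw [hxsp]; linarith
  have hxsn2 : ‖dinv F xs‖ < 1 - ν := by rw [hxsp]; linarith
  have hxs_im : δ < xs.im := by
    by_contra hcon
    push Not at hcon
    have hlo := H.flt.low' H.drv H.h4 H.h16 hxsD (bf_mono (by linarith) hxsb)
    set q : ℂ := ⟨xs.re, -δ⟩ with hq
    have hqb : q ∈ Bf xb rf := by
      refine ⟨lt_of_lt_of_le hxsb.1 (by linarith), ?_⟩
      show |-δ| < rf
      rw [abs_neg, abs_of_pos hδ]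
      linarith
    have hqD : q ∉ D := fun h => by
      have := H.flt.low' H.drv H.h4 H.h16 h hqb
      simp only [hq] at this
      exact lt_irrefl _ this
    have hqd : dist q xs ≤ 3 * ℓ := by
      rw [dist_eq_norm]
      refine (Complex.norm_le_abs_re_add_abs_im _).trans ?_
      rw [Complex.sub_re, Complex.sub_im]
      have h1 : |q.re - xs.re| ≤ 0 := by simp [hq]
      have h2 : |q.im - xs.im| ≤ 2 * δ := abs_le.2 ⟨by simp only [hq]; linarith, by
        simp only [hq]; linarith⟩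
      linarith
    have := H.sit.bdy xs (by rw [H.img]; exact hxsD) q (by rw [H.img]; exact hqD) hqd
    linarith
  have hxsC : xs ∈ C₀ := ⟨bf_mono (by linarith) hxsb, hxs_im⟩
  have hxsG : dinv F xs ∈ Dd (fun i => dinv F '' K i) := by
    refine gd_sub_dd (σ := 1) (ε := 0) (ε' := 1) (xc := 1) ?_
    refine gd_of_norm H.sit.obs zero_lt_one ⟨?_, Or.inl ?_⟩ hxsn
    · linarith
    · linarith
  -- the point
  have hzC : z ∈ C₀ := ⟨bf_mono hrc hz, hz2⟩
  have hzD := hCD hzC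
  have hzG : dinv F z ∈ Dd (fun i => dinv F '' K i) := by
    have h1 : IsPreconnected (dinv F '' C₀) := hCc.isPreconnected.image _ fun x hx =>
      (hconf.dinv_continuousAt (hCD hx)).continuousWithinAt
    have h2 : dinv F '' C₀ ⊆ ball 0 1 \ Nb (fun i => dinv F '' K i) := by
      rintro _ ⟨x, hx, rfl⟩
      exact ⟨hconf.dinv_mem (hCD hx), disjoint_left.1 hCN ⟨x, hx, rfl⟩⟩
    have h3 := h1.subset_connectedComponentIn ⟨xs, hxsC, rfl⟩ h2
    have h4 := connectedComponentIn_eq hxsG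
    rw [Dd, h4]
    exact h3 ⟨z, hzC, rfl⟩
  refine H.sit.mem_of_pos (by rw [H.img]; exact hzD)
    (gd_of_deep H.sit.obs H.sit.he H.sit.he1 H.sit.hε1 hzG ?_)
  rintro w ⟨hw1, hw2⟩
  refine ⟨mem_ball_zero_iff.1 hw2, Or.inr (Or.inr ?_)⟩
  obtain ⟨v, hv, rfl⟩ := hzD
  have hvHH : v ∈ HH := Vale.Agent.P164.im_pos_of_dom H.drv.nn hv
  have h1 := re_of_far H.drv H.flt.hX1 H.h4 H.h16 hX2 hX22 hvHH (hfar v hvHH hz)
  rw [← H.dinv_ψ hv] at h1
  have h2 := Complex.abs_re_le_norm (w - dinv F (ψ v))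
  rw [← dist_eq_norm, Complex.sub_re] at h2
  have h3 := (abs_lt.1 (h2.trans_lt (mem_ball.1 hw1))).1
  have h4 := C.g3
  have h5 : xc * ‖w‖ ≤ xc * 1 := mul_le_mul_of_nonneg_left (mem_ball_zero_iff.1 hw2).le C.hxc0
  linarith

end Sat

end Vale.Agent.P167.SG
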