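import Vale.Agent.P167.SG.Core
import Vale.Agent.P167.H450.OutB

/-!
# P167, general `q`, SAND: the common inner domain is an inner domain of the slit domain

`qt_of`: if the collar and the obstacles are small compared with `h`, then the inner polygon `Qt` of
the outer polygon `Pm` (margin `h / 16`) satisfies `Inner` and `Collar` with respect to `D` and to
`Pm`.
-/

set_option autoImplicit false

namespace Vale.Agent.P167.SG

open Set Metric
open Vale.Agent.P153.R2.R1 (Conf dinv)
open Vale.Agent.P167.H756 (Inner Collar)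
open Vale.Agent.P167.H450 (sqr bk br reg GF)
open Vale.Agent.P167.H450.Out (OD Pm MF Fil Ofc Qt sub_Pm frontier_Pm isOpen_Pm collar_iff
  exists_exit_path preconn_thick)

theorem qt_of {Rd ρ₀ h : ℝ} (hh : 0 < h) (hρ₀ : ρ₀ < 1) : ∃ κ > 0, ∀ {ι : Type} [Finite ι]
    {F : ℂ → ℂ} {σ ε ε' xc e ν r ℓ : ℝ} {K : ι → Set ℂ}, Sit F σ ε ε' xc e ν r ℓ K → 0 ≤ ε →
    (∀ z ∈ F '' ball 0 1, ∀ z' ∈ F '' ball 0 1, dist z z' ≤ Rd) → ε + 4 * e + 2 * ν ≤ κ →
    r + 16 * ℓ ≤ h / 32 → ∀ z₀ : ℂ, ball z₀ h ⊆ F '' ball 0 1 → ‖dinv F z₀‖ ≤ ρ₀ →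
    ∀ F₀ : ℤ × ℤ, z₀ ∈ sqr ℓ F₀ →
      F₀ ∈ GF ℓ (h / 16) (Pm ℓ (Ug F σ ε ε' xc K)) (Pm ℓ (Ug F σ ε ε' xc K)) ∧
      Inner (F '' ball 0 1) (Qt ℓ (h / 16) (Ug F σ ε ε' xc K) F₀) z₀ h ∧
      Collar (F '' ball 0 1) (Qt ℓ (h / 16) (Ug F σ ε ε' xc K) F₀) h ∧
      Inner (Pm ℓ (Ug F σ ε ε' xc K)) (Qt ℓ (h / 16) (Ug F σ ε ε' xc K) F₀) z₀ h ∧
      Collar (Pm ℓ (Ug F σ ε ε' xc K)) (Qt ℓ (h / 16) (Ug F σ ε ε' xc K) F₀) h ∧
      Qt ℓ (h / 16) (Ug F σ ε ε' xc K) F₀ ⊆ Ug F σ ε ε' xc K ∧
      ∀ z ∈ Qt ℓ (h / 16) (Ug F σ ε ε' xc K) F₀, ball z (h / 32) ⊆ F '' ball 0 1 ∧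
        ‖dinv F z‖ < 1 - κ := by
  obtain ⟨c, hc, hcore⟩ := core (Rd := Rd) (η := h / 64) (by positivity)
  have hρ1 : 0 < 1 - ρ₀ := by linarith
  set κ : ℝ := c * (1 - ρ₀) / 2 with hκ
  have hκ0 : 0 < κ := by positivity
  refine ⟨κ, hκ0, ?_⟩
  intro ι _ F σ ε ε' xc e ν r ℓ K H hε0 hRd hsmall hrℓ z₀ hz₀ hpos₀ F₀ hF₀
  set D : Set ℂ := F '' ball 0 1 with hD
  set U : Set ℂ := Ug F σ ε ε' xc K with hU
  set R : ℝ := h / 16 with hR
  have hR0 : 0 < R := by positivity
  have hℓ := H.od.hℓ
  have hr := H.od.hr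
  have he := H.he
  have hν := H.hν
  have hε : ε ≤ κ := by linarith
  have heκ : e < κ := by linarith
  have hz₀D : z₀ ∈ D := hz₀ (mem_ball_self hh)
  have hconf : Conf F D := H.conf
  -- connected sets with margin have bounded positions
  have hpos : ∀ C : Set ℂ, IsPreconnected C → z₀ ∈ C → (∀ z ∈ C, ball z (h / 64) ⊆ D) →
      ∀ z ∈ C, 2 * κ ≤ 1 - ‖dinv F z‖ := by
    intro C hC hz₀C hb z hz
    have hCD : ∀ z ∈ C, z ∈ D := fun z hz => hb z hz (mem_ball_self (by positivity))
    have h1 := hcore F D hconf C z₀ hC hz₀C hb (fun z hz => hRd z (hCD z hz) z₀ hz₀D) z hz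
    have h2 : c * (1 - ρ₀) ≤ c * (1 - ‖dinv F z₀‖) := by
      apply mul_le_mul_of_nonneg_left _ hc.le
      linarith
    rw [hκ]
    linarith
  have hposU : ∀ z ∈ D, 2 * κ ≤ 1 - ‖dinv F z‖ → z ∈ U := by
    intro z hz hzκ
    refine H.mem_of_pos hz (gd_of_norm H.obs H.hε1 ⟨?_, Or.inl ?_⟩ ?_)
    · exact mem_ball_zero_iff.1 (hconf.dinv_mem hz)
    · linarith
    · linarith
  -- sets with margin `h / 32` are in `U`
  have hin : ∀ C : Set ℂ, IsPreconnected C → z₀ ∈ C → (∀ z ∈ C, ball z (h / 64) ⊆ D) → C ⊆ U := by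
    intro C hC hz₀C hb z hz
    exact hposU z (hb z hz (mem_ball_self (by positivity))) (hpos C hC hz₀C hb z hz)
  have hR3 : 0 < R + 3 * ℓ := by linarith
  have hthick : ∀ C : Set ℂ, IsPreconnected C → z₀ ∈ C → (∀ z ∈ C, ball z h ⊆ D) →
      ∀ z ∈ C, ball z (R + 3 * ℓ) ⊆ U := by
    intro C hC hz₀C hb z hz
    have h1 : (⋃ z ∈ C, ball z (R + 3 * ℓ)) ⊆ U := by
      apply hin _ (preconn_thick hC hR3) (mem_biUnion hz₀C (mem_ball_self hR3))
      intro x hx
      simp only [mem_iUnion, exists_prop] at hx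
      obtain ⟨z, hz, hxz⟩ := hx
      refine Subset.trans (ball_subset_ball' ?_) (hb z hz)
      rw [mem_ball] at hxz
      rw [hR] at hxz
      linarith
    exact (subset_iUnion₂ (s := fun z (_ : z ∈ C) => ball z (R + 3 * ℓ)) z hz).trans h1
  have hball₀ : ball z₀ (R + 3 * ℓ) ⊆ U :=
    hthick {z₀} isPreconnected_singleton rfl (by rintro z rfl; exact hz₀) z₀ rfl
  have hg : F₀ ∈ GF ℓ R (Pm ℓ U) (Pm ℓ U) := by
    have hz' : ball z₀ (R + 3 * ℓ) ⊆ Pm ℓ U := hball₀.trans (sub_Pm hℓ)
    refine ⟨fun w hw => ?_, fun w hw => hz' ?_⟩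
    · refine (ball_subset_ball' ?_).trans hz'
      have := Vale.Agent.P167.H450.dist_le_of_bk (Vale.Agent.P167.H450.sqr_subset_bk hℓ hF₀) hw
      rw [dist_comm] at this
      linarith
    · have := Vale.Agent.P167.H450.dist_le_of_bk (Vale.Agent.P167.H450.sqr_subset_bk hℓ hF₀)
        (Vale.Agent.P167.H450.obk_subset_bk hw)
      rw [mem_ball, dist_comm]
      linarith
  set Q : Set ℂ := Qt ℓ R U F₀ with hQ
  have hQD : ∀ z ∈ Q, ball z (h / 32) ⊆ D := fun z hz =>
    H.od.Q_sub (R' := h / 32) (by positivity) (by rw [hR]; linarith) hg hz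
  have hinD : Inner D Q z₀ h := fun C hC hz₀C hb =>
    H.od.inner_P hR0 hg hF₀ C hC hz₀C fun z hz => (hthick C hC hz₀C hb z hz).trans (sub_Pm hℓ)
  have hz₀Q : z₀ ∈ Q :=
    hinD {z₀} isPreconnected_singleton rfl (by rintro z rfl; exact hz₀) rfl
  have hQc : IsPreconnected Q := by
    -- the union of the connected sets of the good bricks
    exact (H.od.good_Qt hR0 hg).rdom.conn.isPreconnected
  have hcl : ∀ y ∈ closure Q, ball y (h / 64) ⊆ D := by
    intro y hy
    obtain ⟨q, hq, hyq⟩ := Metric.mem_closure_iff.1 hy (h / 64) (by positivity)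
    refine Subset.trans (ball_subset_ball' ?_) (hQD q hq)
    linarith
  have hposQ : ∀ y ∈ closure Q, 2 * κ ≤ 1 - ‖dinv F y‖ :=
    hpos _ hQc.closure (subset_closure hz₀Q) hcl
  refine ⟨hg, hinD, ?_, ?_, ?_, ?_, ?_⟩
  · -- the collar
    rw [collar_iff]
    intro y hy
    have hyc : y ∈ closure Q := frontier_subset_closure hy
    obtain ⟨k₁, hk₁, hj₁⟩ := collar_iff.1 (H.od.collar_P hR0 hg) y hy
    have hQP : Q ⊆ Pm ℓ U := fun z hz => H.od.margin_Q hR0 hg hz (mem_ball_self hR0)
    obtain ⟨x, hx, hjx⟩ := exists_exit_path isOpen_Pm (closure_mono hQP hyc) hk₁ hj₁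
    have hxP : x ∉ Pm ℓ U := fun h => (disjoint_frontier_iff_isOpen.2 isOpen_Pm).le_bot ⟨hx, h⟩
    have hxy : dist x y ≤ R + 3 * ℓ := mem_closedBall.1 hjx.target_mem.2
    have hxQ : ∀ q ∈ Q, R ≤ dist x q := by
      intro q hq
      by_contra hlt
      push Not at hlt
      exact hxP (H.od.margin_Q hR0 hg hq (mem_ball.2 hlt))
    -- it is enough to find a point of the complement near `x` such that the segment avoids `Q`
    suffices hsuf : ∃ k, k ∉ D ∧ dist x k ≤ 5 * (R + 3 * ℓ) ∧ Disjoint (segment ℝ x k) Q by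
      obtain ⟨k, hk, hkx, hdis⟩ := hsuf
      refine ⟨k, hk, (hjx.mono ?_).trans ?_⟩
      · refine inter_subset_inter_right _ (closedBall_subset_closedBall ?_)
        rw [hR]; linarith
      · refine JoinedIn.mono (((convex_segment x k).isPathConnected
          ⟨x, left_mem_segment ℝ x k⟩).joinedIn x (left_mem_segment ℝ x k) k
          (right_mem_segment ℝ x k)) ?_
        intro w hw
        refine ⟨fun hwQ => Set.disjoint_left.1 hdis hw hwQ, ?_⟩
        rw [mem_closedBall]
        have h1 := dist_segment hw (left_mem_segment ℝ x k)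
        have h2 := dist_triangle w x y
        rw [hR] at *
        linarith
    by_cases ha : ∃ k, k ∉ D ∧ dist x k < R
    · obtain ⟨k, hk, hkx⟩ := ha
      refine ⟨k, hk, by linarith, ?_⟩
      rw [Set.disjoint_left]
      intro w hw hwQ
      have h1 := hxQ w hwQ
      have h2 := dist_segment hw (left_mem_segment ℝ x k)
      rw [dist_comm w x] at h2
      linarith
    · push Not at ha
      have hballx : ball x R ⊆ D := by
        intro w hw
        by_contra hwD
        have := ha w hwD
        rw [mem_ball, dist_comm] at hw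
        linarith
      have hxD : x ∈ D := hballx (mem_ball_self hR0)
      -- the position of `x` is near the circle
      have hxpos : 1 - ‖dinv F x‖ < 2 * κ := by
        obtain ⟨⟨G, hG, hxG⟩, -⟩ := frontier_Pm hℓ hx
        obtain ⟨u, hu, huU⟩ := hG
        have hux : dist x u ≤ 3 * ℓ :=
          Vale.Agent.P167.H450.dist_le_of_bk (Vale.Agent.P167.H450.sqr_subset_bk hℓ hxG) hu
        have hxU : x ∉ U := fun h => hxP (sub_Pm hℓ h)
        have hseg : segment ℝ u x ⊆ D := by
          refine Subset.trans ?_ hballx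
          apply (convex_ball x R).segment_subset
          · rw [mem_ball, dist_comm]; rw [hR]; linarith
          · exact mem_ball_self hR0
        have h1 : dist (dinv F u) (dinv F x) ≤ ν := by
          refine H.sml _ hseg (convex_segment _ _).isPreconnected ?_ u (left_mem_segment ℝ _ _) x
            (right_mem_segment ℝ _ _)
          intro a ha b hb
          have := dist_segment ha hb
          rw [dist_comm u x] at this
          linarith
        have h2 : ‖dinv F u‖ ≤ ‖dinv F x‖ + dist (dinv F u) (dinv F x) := by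
          rw [dist_eq_norm]
          have := norm_add_le (dinv F x) (dinv F u - dinv F x)
          rwa [add_sub_cancel] at this
        rcases H.near_alt huU hxU hux with h3 | ⟨w, hw1, hw2, hw3⟩
        · linarith
        · have h4 : 1 - ε ≤ ‖w‖ := by
            by_contra hlt
            push Not at hlt
            exact hw2 ⟨hw1, Or.inl hlt⟩
          have h5 : ‖w‖ ≤ ‖dinv F u‖ + dist (dinv F u) w := by
            rw [dist_comm, dist_eq_norm]
            have := norm_add_le (dinv F u) (w - dinv F u)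
            rwa [add_sub_cancel] at this
          linarith
      -- a connected set which contains `x` and a point of the closure of `Q`
      have hnot : ∀ C : Set ℂ, IsPreconnected C → x ∈ C → (∀ z ∈ C, ball z (h / 64) ⊆ D) →
          ∀ q ∈ C, q ∈ closure Q → False := by
        intro C hC hxC hb q hqC hqQ
        have h1 : IsPreconnected (closure Q ∪ C) :=
          IsPreconnected.union q hqQ hqC hQc.closure hC
        have h2 := hpos _ h1 (Or.inl (subset_closure hz₀Q)) (by
          rintro z (hz | hz)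
          · exact hcl z hz
          · exact hb z hz) x (Or.inr hxC)
        linarith
      -- the distance of `x` from the complement
      have hne : (Dᶜ).Nonempty := by
        by_contra hcon
        rw [Set.not_nonempty_iff_eq_empty, compl_empty_iff] at hcon
        have h1 := hRd 0 (by rw [hcon]; trivial) ((|Rd| + 1 : ℝ) : ℂ) (by rw [hcon]; trivial)
        rw [dist_comm, dist_zero_right, Complex.norm_real, Real.norm_eq_abs,
          abs_of_pos (by positivity)] at h1
        linarith [le_abs_self Rd]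
      have hclD : IsClosed Dᶜ := hconf.isOpen.isClosed_compl
      obtain ⟨k, hk, hkd⟩ := hclD.exists_infDist_eq_dist hne x
      set d : ℝ := infDist x Dᶜ with hd
      have hballd : ball x d ⊆ D := by
        intro w hw
        by_contra hwD
        have h1 := infDist_le_dist_of_mem (x := x) (show w ∈ Dᶜ from hwD)
        rw [mem_ball, dist_comm] at hw
        linarith
      refine ⟨k, hk, ?_, ?_⟩
      · by_contra hlt
        push Not at hlt
        rw [← hkd] at hlt
        refine hnot (segment ℝ x y) (convex_segment _ _).isPreconnected (left_mem_segment ℝ _ _)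
          ?_ y (right_mem_segment ℝ _ _) hyc
        intro z hz
        refine Subset.trans (ball_subset_ball' ?_) hballd
        have h1 := dist_segment hz (left_mem_segment ℝ x y)
        rw [hR] at *
        linarith
      · rw [Set.disjoint_left]
        intro q hq hqQ
        obtain ⟨s, t, hs, ht, hst, hqe⟩ := hq
        have hqk : h / 32 ≤ dist q k := by
          by_contra hlt
          push Not at hlt
          rw [dist_comm] at hlt
          exact hk (hQD q hqQ (mem_ball.2 hlt))
        -- distances on the segment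
        have e1 : dist x q = t * d := by
          rw [hkd, dist_eq_norm, dist_eq_norm, ← hqe]
          have : x - (s • x + t • k) = t • (x - k) := by
            have hs' : s = 1 - t := by linarith
            rw [hs']
            module
          rw [this, norm_smul, Real.norm_of_nonneg ht]
        have e2 : dist q k = s * d := by
          rw [hkd, dist_eq_norm, dist_eq_norm, ← hqe]
          have : (s • x + t • k) - k = s • (x - k) := by
            have ht' : t = 1 - s := by linarith
            rw [ht']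
            module
          rw [this, norm_smul, Real.norm_of_nonneg hs]
        refine hnot (segment ℝ x q) (convex_segment _ _).isPreconnected (left_mem_segment ℝ _ _)
          ?_ q (right_mem_segment ℝ _ _) (subset_closure hqQ)
        intro z hz
        refine Subset.trans (ball_subset_ball' ?_) hballd
        have h1 := dist_segment hz (left_mem_segment ℝ x q)
        have h2 : s * d + t * d = d := by rw [← add_mul, hst, one_mul]
        linarith
  · exact (H.od.inner_P hR0 hg hF₀).mono (by rw [hR]; linarith)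
  · exact (H.od.collar_P hR0 hg).mono (by rw [hR]; linarith)
  · intro z hz
    exact hposU z (hQD z hz (mem_ball_self (by positivity))) (hposQ z (subset_closure hz))
  · intro z hz
    refine ⟨hQD z hz, ?_⟩
    have := hposQ z (subset_closure hz)
    linarith

end Vale.Agent.P167.SG
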