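import Vale.Agent.P167.SG.Cls5

/-!
# P167, general `q`, SAND: points seen from the base, the line

`Sat.dd_of_seen`: a connected subset of the domain off the obstacles which are not teeth has its
positions (off the teeth) in the component of `0`. `Sat.ftype2`: positions of boundary points, with an
auxiliary point. `Sat.pm_above`, `Sat.pm_flat`: the polygon near the line.
-/

set_option autoImplicit false

namespace Vale.Agent.P167.SG

open Set Metric Filter Topology ComplexConjugate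
open Vale.Agent.P153.R2.R1 (Conf dinv mb)
open Vale.Agent.P153.R2.L1 (HH)
open Vale.Agent.P164 (loewnerDomain gf Zf)
open Vale.Agent.P167.H756 (Cls FD FD_mb FD_img HConf Drv cls_FD)
open Vale.Agent.P167.H450 (sqr bk br)
open Vale.Agent.P167.H450 Vale.Agent.P167.H450.Out

/-- A half box. -/
theorem half_box {xb r δ : ℝ} : Convex ℝ {w : ℂ | w ∈ Bf xb r ∧ δ < w.im} ∧
    IsOpen {w : ℂ | w ∈ Bf xb r ∧ δ < w.im} := by
  constructor
  · have e1 : {w : ℂ | w ∈ Bf xb r ∧ δ < w.im} = {w : ℂ | w.re < xb + r} ∩ {w | xb - r < w.re} ∩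
        {w | δ < w.im} ∩ {w | w.im < r} ∩ {w | -r < w.im} := by
      ext w
      simp only [Bf, mem_ofPred_eq, mem_inter_iff, abs_lt]
      constructor
      · rintro ⟨⟨⟨h1, h2⟩, h3, h4⟩, h5⟩
        exact ⟨⟨⟨⟨by linarith, by linarith⟩, h5⟩, h4⟩, h3⟩
      · rintro ⟨⟨⟨⟨h1, h2⟩, h3⟩, h4⟩, h5⟩
        exact ⟨⟨⟨by linarith, by linarith⟩, by linarith, h4⟩, h3⟩
    rw [e1]
    exact ((((convex_halfSpace_re_lt _).inter (convex_halfSpace_re_gt _)).inter
      (convex_halfSpace_im_gt _)).inter (convex_halfSpace_im_lt _)).inter (convex_halfSpace_im_gt _)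
  · have e1 : {w : ℂ | w ∈ Bf xb r ∧ δ < w.im} =
        {w : ℂ | |w.re - xb| < r} ∩ ({w | |w.im| < r} ∩ {w | δ < w.im}) := by
      ext w
      simp only [Bf, mem_ofPred_eq, mem_inter_iff, and_assoc]
    rw [e1]
    refine (isOpen_lt ?_ continuous_const).inter ((isOpen_lt ?_ continuous_const).inter
      (isOpen_lt continuous_const Complex.continuous_im))
    · exact (Complex.continuous_re.sub continuous_const).abs
    · exact Complex.continuous_im.abs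

theorem isOpen_bf {xb r : ℝ} : IsOpen (Bf xb r) := by
  have e1 : Bf xb r = {w : ℂ | |w.re - xb| < r} ∩ {w | |w.im| < r} := by
    ext w
    simp only [Bf, mem_ofPred_eq, mem_inter_iff]
  rw [e1]
  refine (isOpen_lt ?_ continuous_const).inter (isOpen_lt ?_ continuous_const)
  · exact (Complex.continuous_re.sub continuous_const).abs
  · exact Complex.continuous_im.abs

/-- The other components are open. -/
theorem isOpen_diff_comp {O : Set ℂ} (hO : IsOpen O) {x : ℂ} :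
    IsOpen (O \ connectedComponentIn O x) := by
  rw [isOpen_iff_mem_nhds]
  rintro w ⟨hw, hwx⟩
  refine Filter.mem_of_superset (hO.connectedComponentIn.mem_nhds (mem_connectedComponentIn hw)) ?_
  intro z hz
  refine ⟨connectedComponentIn_subset _ _ hz, fun h => hwx ?_⟩
  rw [connectedComponentIn_eq h, ← connectedComponentIn_eq hz]
  exact mem_connectedComponentIn hw

namespace Sat

variable {ι : Type} {T R x3 xB τ κ x' xc ε η e ν X1 X3 : ℝ} {ψ : ℂ → ℂ} {W : ℝ → ℝ}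
    {t σ xb rf cg δ r₀ ρ r' ℓ s₂ : ℝ} {Gt IN : Set ℂ} {x₁ tp : ℂ} {K : ι → Set ℂ}
    (H : Sat T R x3 xB τ κ x' xc ε η e ν X1 X3 ψ W t σ xb rf cg δ r₀ ρ r' ℓ s₂ Gt IN x₁ tp K)
include H

/-- The barrier is far from `U`. -/
theorem yb_far_U {x u : ℂ} (hx : x ∈ FD ψ W t '' Yb σ (1 - ε / 2) η x')
    (hu : u ∈ Ug (FD ψ W t) σ ε (τ / 2) xc (fun i => dinv (FD ψ W t) '' K i)) :
    12 * ℓ < dist x u := by
  have C := H.cst
  have hε := C.hε
  have hε1 := C.hε1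
  have hν := C.hν
  have hσ := H.sit.hσ
  have h40 := H.h40
  have hℓ := H.hℓ
  obtain ⟨w, hw, rfl⟩ := hx
  have hwb : w ∈ ball (0 : ℂ) 1 := mem_ball_zero_iff.2
    (yb_mem hσ (by linarith) (by linarith) C.hη.le C.hη2.le C.hx' C.hx'1.le hw).1
  have hyD : FD ψ W t w ∈ ψ '' loewnerDomain W t := by rw [← H.img]; exact ⟨w, hwb, rfl⟩
  by_contra hcon
  push Not at hcon
  have h1 := H.nc2 u hu (FD ψ W t w) hyD (by rw [dist_comm]; exact hcon) fun hn => by
    rw [H.conf.dinv_apply hwb] at hn ⊢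
    exact yb_nr hσ (by linarith) C.hη.le C.hη2.le C.hx' C.hx'1.le C.s1 C.s3 C.s4 hw hn
  have h2 := H.sit.close' (H.sit.sub hu) (v := FD ψ W t w) (by
    rw [H.img]; exact jd_mono h1 (by linarith))
  have h3 := H.yb_far' hw (gd_sub (H.sit.pos_gd hu)).1
  rw [H.conf.dinv_apply hwb, dist_comm] at h2
  linarith

/-- **Separation**, for sets in the closed polygon or near `U` (a tip). -/
theorem sep' {E : Set ℂ} (hE : IsPreconnected E) (hED : E ⊆ ψ '' loewnerDomain W t)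
    (hEP : ∀ x ∈ E,
      x ∈ closure (Pm ℓ (Ug (FD ψ W t) σ ε (τ / 2) xc (fun i => dinv (FD ψ W t) '' K i))) ∨
      ∃ u ∈ Ug (FD ψ W t) σ ε (τ / 2) xc (fun i => dinv (FD ψ W t) '' K i), dist x u ≤ 12 * ℓ)
    (hne : (E ∩ FD ψ W t '' ball 0 (1 - ε / 2)).Nonempty) {y : ℂ} (hy : y ∈ E) :
    dinv (FD ψ W t) y ∈ Rr σ (ε / 2) η x' := by
  have C := H.cst
  have hε := C.hε
  have hε1 := C.hε1
  obtain ⟨X, hX, -⟩ := H.gate
  have h1 := H.sit.sep (ε₁ := ε / 2) (by linarith) C.hη C.hη2 C.hx' C.hη1 hE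
    (by rw [H.img]; exact hED) (by
      rw [disjoint_left]
      intro x hx hxE
      rcases hEP x hxE with h | ⟨u, hu, hxu⟩
      · exact disjoint_left.1 hX (Or.inl hx) h
      · have := H.yb_far_U hx hu
        linarith) (by
      obtain ⟨x, hx, w, hw, rfl⟩ := hne
      exact ⟨_, hx, w, ⟨by have := mem_ball_zero_iff.1 hw; linarith,
        Or.inl (mem_ball_zero_iff.1 hw)⟩, rfl⟩)
  obtain ⟨w, hw, rfl⟩ := h1 hy
  rwa [H.conf.dinv_apply (rr_sub hw)]

/-- The deep point in the box. -/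
theorem deep_pt (h8 : 8 * R ≤ X3) (h64 : 64 * T ≤ X3 ^ 2) (hκ : κ ≤ 1 - ρb X3) :
    ∃ xs ∈ ψ '' loewnerDomain W t, xs ∈ Bf xb (rf / 4) ∧ δ < xs.im ∧
      ‖dinv (FD ψ W t) xs‖ < 1 - e := by
  have C := H.cst
  have hε := C.hε
  have hν := C.hν
  have he := C.he
  have hℓ := H.hℓ
  have hδ := H.flt.hδ
  have hδℓ := H.hδℓ
  have h40 := H.h40
  have hrf0 := H.flt.hrf
  have hrf := H.hrf
  have hX30 : 0 < X3 := H.flt.hX1.trans_le H.flt.hX3
  set F : ℂ → ℂ := FD ψ W t with hF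
  set D : Set ℂ := ψ '' loewnerDomain W t with hD
  have hI : ((X3 : ℂ) * Complex.I) ∈ HH := by
    show 0 < ((X3 : ℂ) * Complex.I).im
    simpa using hX30
  have hnI : ‖(X3 : ℂ) * Complex.I‖ = X3 := by
    rw [norm_mul, Complex.norm_I, mul_one, Complex.norm_real, Real.norm_of_nonneg hX30.le]
  have hdI := (H.drv.base hX30 h8 h64).1
  have hpI := pos_base H.drv hX30 h8 h64
  set xs : ℂ := ψ ((X3 : ℂ) * Complex.I) with hxs
  have hxsD : xs ∈ D := ⟨_, hdI, rfl⟩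
  have hxsp : dinv F xs = pos W t ((X3 : ℂ) * Complex.I) := H.dinv_ψ hdI
  have hxsb : xs ∈ Bf xb (rf / 4) := H.flt.near _ hI (by rw [hnI])
  have hg2 := C.g2
  have hxsn : ‖dinv F xs‖ < 1 - e := by rw [hxsp]; linarith
  have hxsn2 : ‖dinv F xs‖ < 1 - ν := by rw [hxsp]; linarith
  refine ⟨xs, hxsD, hxsb, ?_, hxsn⟩
  by_contra hcon
  push Not at hcon
  have hlo := H.flt.low' H.drv H.h4 H.h16 hxsD (bf_mono (by linarith) hxsb)
  set q : ℂ := ⟨xs.re, -δ⟩ with hq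
  have hqb : q ∈ Bf xb rf := by
    refine ⟨lt_of_lt_of_le hxsb.1 (by linarith), ?_⟩
    show |-δ| < rf
    rw [abs_neg, abs_of_pos hδ]
    linarith
  have hqD : q ∉ D := fun h => by
    have := H.flt.low' H.drv H.h4 H.h16 h hqb
    simp only [hq] at this
    exact lt_irrefl _ this
  have hqd : dist q xs ≤ 3 * ℓ := by
    rw [dist_eq_norm]
    refine (Complex.norm_le_abs_re_add_abs_im _).trans ?_
    rw [Complex.sub_re, Complex.sub_im]
    have h1 : |q.re - xs.re| ≤ 0 := by simp [hq]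
    have h2 : |q.im - xs.im| ≤ 2 * δ := abs_le.2 ⟨by simp only [hq]; linarith, by
      simp only [hq]; linarith⟩
    linarith
  have := H.sit.bdy xs (by rw [H.img]; exact hxsD) q (by rw [H.img]; exact hqD) hqd
  linarith

/-- **Points seen from the base.** `te`: the teeth, in the box of radius `r₂`; the other obstacles are
off the box of radius `r₃`. -/
theorem dd_of_seen [Finite ι] (h8 : 8 * R ≤ X3) (h64 : 64 * T ≤ X3 ^ 2) (hκ : κ ≤ 1 - ρb X3)
    {te : ι → Prop} {r₂ r₃ : ℝ} (hr₂₃ : r₂ < r₃) (hr₃ : r₃ ≤ rf) (hr₃' : rf / 4 ≤ r₃)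
    (hcl : ∀ i, ¬ te i → closure (K i) ∩ ψ '' loewnerDomain W t ⊆ K i)
    (hO : ∀ i, ¬ te i → Disjoint (K i) (Bf xb r₃))
    (hT : ∀ i, te i → ∀ z ∈ K i, z ∈ Bf xb r₂ ∧ z.im ≤ 0)
    {X : Set ℂ} (hX : IsPreconnected X) (hXD : X ⊆ ψ '' loewnerDomain W t)
    (hXO : ∀ i, ¬ te i → Disjoint X (K i)) (hne : (X ∩ FD ψ W t '' ball 0 (1 - e)).Nonempty)
    {y : ℂ} (hy : y ∈ X) (hyT : 0 < y.im ∨ y ∉ Bf xb r₃) :
    dinv (FD ψ W t) y ∈ Dd (fun i => dinv (FD ψ W t) '' K i) := by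
  have hδ := H.flt.hδ
  have hδℓ := H.hδℓ
  have h40 := H.h40
  have hrf := H.hrf
  have hrf0 := H.flt.hrf
  obtain ⟨xs, hxsD, hxsb, hxsi, hxsn⟩ := H.deep_pt h8 h64 hκ
  set F : ℂ → ℂ := FD ψ W t with hF
  set D : Set ℂ := ψ '' loewnerDomain W t with hD
  have hconf : Conf F D := H.conf
  set κ' : ι → Set ℂ := fun i => dinv F '' K i with hκ'
  have hxD : ∀ w, ‖w‖ < 1 - e → w ∈ Dd κ' := by
    intro w hw
    refine gd_sub_dd (σ := 1) (ε := 0) (ε' := 1) (xc := 1) ?_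
    have he := H.cst.he
    exact gd_of_norm H.sit.obs zero_lt_one ⟨by linarith, Or.inl (by linarith)⟩ hw
  have hr₃0 : δ < r₃ := by linarith
  -- closures
  have hnb : ∀ x ∈ D, (∀ i, x ∉ closure (K i)) → dinv F x ∉ Nb κ' := by
    intro x hx hxK hN
    obtain ⟨i, hi⟩ := mem_iUnion.1 hN
    have hb := hconf.dinv_mem hx
    have hc : ContinuousAt F (dinv F x) :=
      hconf.diff.continuousOn.continuousAt (isOpen_ball.mem_nhds hb)
    have h1 : F (dinv F x) ∈ closure (F '' κ' i) := by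
      have h2 : ContinuousWithinAt F (κ' i) (dinv F x) := hc.continuousWithinAt
      exact h2.mem_closure_image hi
    rw [hconf.apply_dinv hx] at h1
    have h3 : F '' κ' i ⊆ K i := by
      rintro _ ⟨_, ⟨z, hz, rfl⟩, rfl⟩
      rw [hconf.apply_dinv (H.hst.ksub i hz)]
      exact hz
    exact hxK i (closure_mono h3 h1)
  set Lc : Set ℂ := {z | (-δ ≤ z.im ∧ z.im ≤ 0) ∧ |z.re - xb| ≤ r₂} with hLc
  have hLcc : IsClosed Lc := by
    have e1 : Lc = ({z : ℂ | -δ ≤ z.im} ∩ {z | z.im ≤ 0}) ∩ {z | |z.re - xb| ≤ r₂} := by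
      ext z; simp only [hLc, mem_ofPred_eq, mem_inter_iff]
    rw [e1]
    refine ((isClosed_le continuous_const Complex.continuous_im).inter
      (isClosed_le Complex.continuous_im continuous_const)).inter (isClosed_le ?_ continuous_const)
    exact (Complex.continuous_re.sub continuous_const).abs
  have hTL : ∀ i, te i → closure (K i) ⊆ Lc := by
    intro i hi
    refine closure_minimal (fun z hz => ?_) hLcc
    obtain ⟨h1, h2⟩ := hT i hi z hz
    exact ⟨⟨(H.flt.low' H.drv H.h4 H.h16 (H.hst.ksub i hz) (bf_mono (by linarith) h1)).le, h2⟩,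
      h1.1.le⟩
  have hOc : ∀ i, ¬ te i → Disjoint (closure (K i)) (Bf xb r₃) := fun i hi =>
    (hO i hi).closure_left isOpen_bf
  -- the box without the teeth
  set C₂ : Set ℂ := {z | z ∈ D ∧ z ∈ Bf xb r₃ ∧ (0 < z.im ∨ r₂ < |z.re - xb|)} with hC₂
  set C₀ : Set ℂ := {w | w ∈ Bf xb r₃ ∧ δ < w.im} with hC₀
  have hC₀D : C₀ ⊆ D := fun w hw =>
    H.flt.dom_of H.drv H.h4 H.h16 (H.flt.up w (bf_mono hr₃ hw.1) hw.2) (bf_mono hr₃ hw.1)
  have hC₀2 : C₀ ⊆ C₂ := fun w hw => ⟨hC₀D hw, hw.1, Or.inl (hδ.trans hw.2)⟩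
  have hC₂c : IsPreconnected C₂ := by
    refine isPreconnected_of_forall xs fun z hz => ?_
    set h : ℝ := max z.im ((δ + r₃) / 2) with hh
    have hzi := abs_lt.1 hz.2.1.2
    have hh1 : h < r₃ := max_lt hzi.2 (by linarith)
    have hh2 : δ < h := lt_of_lt_of_le (by linarith) (le_max_right _ _)
    set z' : ℂ := ⟨z.re, h⟩ with hz'
    have hseg : segment ℝ z z' ⊆ C₂ := by
      rintro w ⟨a, b, ha, hb, hab, rfl⟩
      have ha' : a = 1 - b := by linarith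
      set w : ℂ := a • z + b • z' with hw
      have hwr : w.re = z.re := by
        simp only [hw, Complex.add_re, Complex.smul_re, smul_eq_mul, hz']
        rw [ha']; ring
      have hwi : w.im = z.im + b * (h - z.im) := by
        simp only [hw, Complex.add_im, Complex.smul_im, smul_eq_mul, hz']
        rw [ha']; ring
      have hhz : 0 ≤ h - z.im := by linarith [le_max_left z.im ((δ + r₃) / 2)]
      have hw1 : z.im ≤ w.im := by rw [hwi]; nlinarith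
      have hw2 : w.im ≤ h := by rw [hwi]; nlinarith
      have hwb : w ∈ Bf xb r₃ := by
        refine ⟨by rw [hwr]; exact hz.2.1.1, abs_lt.2 ⟨by linarith, by linarith⟩⟩
      refine ⟨?_, hwb, ?_⟩
      · refine H.flt.dom_of H.drv H.h4 H.h16 ?_ (bf_mono hr₃ hwb)
        exact H.flt.lift z (H.sub_HH hz.1) (bf_mono hr₃ hz.2.1) w (bf_mono hr₃ hwb) hwr hw1
      · rcases hz.2.2 with h1 | h1
        · exact Or.inl (h1.trans_le hw1)
        · right; rw [hwr]; exact h1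
    have hz'C : z' ∈ C₀ := by
      refine ⟨⟨hz.2.1.1, ?_⟩, hh2⟩
      show |h| < r₃
      rw [abs_of_pos (by linarith)]
      exact hh1
    refine ⟨segment ℝ z z' ∪ C₀, union_subset hseg hC₀2, Or.inr ⟨bf_mono hr₃' hxsb, hxsi⟩,
      Or.inl (left_mem_segment ℝ _ _), ?_⟩
    exact IsPreconnected.union z' (right_mem_segment ℝ _ _) hz'C (convex_segment _ _).isPreconnected
      half_box.1.isPreconnected
  have hxsC : xs ∈ C₂ := hC₀2 ⟨bf_mono hr₃' hxsb, hxsi⟩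
  have hC₂K : ∀ z ∈ C₂, ∀ i, z ∉ closure (K i) := by
    intro z hz i hi
    by_cases h : te i
    · obtain ⟨⟨-, h1⟩, h2⟩ := hTL i h hi
      rcases hz.2.2 with h3 | h3 <;> linarith
    · exact disjoint_left.1 (hOc i h) hi hz.2.1
  have hC₂A : dinv F '' C₂ ⊆ Dd κ' := by
    have h1 : IsPreconnected (dinv F '' C₂) := hC₂c.image _ fun x hx =>
      (hconf.dinv_continuousAt hx.1).continuousWithinAt
    have h2 : dinv F '' C₂ ⊆ ball 0 1 \ Nb κ' := by
      rintro _ ⟨x, hx, rfl⟩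
      exact ⟨hconf.dinv_mem hx.1, hnb x hx.1 (hC₂K x hx)⟩
    have h3 := h1.subset_connectedComponentIn ⟨xs, hxsC, rfl⟩ h2
    have h4 := connectedComponentIn_eq (hxD (dinv F xs) hxsn)
    rw [Dd, h4]
    exact h3
  -- the two open sets
  set LL : Set ℂ := dinv F '' (D ∩ Lc) with hLL
  have hOo : IsOpen (ball (0 : ℂ) 1 \ Nb κ') := isOpen_ball.sdiff (isClosed_nb κ')
  have hLcb : ∀ z ∈ Lc, z ∈ Bf xb r₃ := by
    rintro z ⟨⟨h1, h2⟩, h3⟩
    exact ⟨by linarith, abs_lt.2 ⟨by linarith, by linarith⟩⟩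
  have hBo : IsOpen (Dd κ' ∪ LL) := by
    rw [isOpen_iff_mem_nhds]
    rintro w (hw | ⟨z, ⟨hzD, hz⟩, rfl⟩)
    · exact Filter.mem_of_superset (isOpen_dd.mem_nhds hw) subset_union_left
    · have hN : IsOpen (dinv F '' (D ∩ Bf xb r₃)) :=
        H.isOpen_img (hconf.isOpen.inter isOpen_bf) inter_subset_left
      refine Filter.mem_of_superset (hN.mem_nhds ⟨z, ⟨hzD, hLcb z hz⟩, rfl⟩) ?_
      rintro _ ⟨x, ⟨hx, hxb⟩, rfl⟩
      by_cases hxT : 0 < x.im ∨ r₂ < |x.re - xb|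
      · exact Or.inl (hC₂A ⟨x, ⟨hx, hxb, hxT⟩, rfl⟩)
      · push Not at hxT
        exact Or.inr ⟨x, ⟨hx, ⟨(H.flt.low' H.drv H.h4 H.h16 hx (bf_mono hr₃ hxb)).le, hxT.1⟩,
          hxT.2⟩, rfl⟩
  have hVo : IsOpen (((ball (0 : ℂ) 1 \ Nb κ') \ Dd κ') ∩ dinv F '' (D \ Lc)) :=
    (isOpen_diff_comp hOo).inter
      (H.isOpen_img (hconf.isOpen.sdiff hLcc) diff_subset)
  have hdisj : Disjoint (Dd κ' ∪ LL) (((ball (0 : ℂ) 1 \ Nb κ') \ Dd κ') ∩
      dinv F '' (D \ Lc)) := by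
    rw [disjoint_left]
    rintro w (hw | ⟨z, ⟨hzD, hz⟩, rfl⟩) ⟨hw2, z', ⟨hz'D, hz'⟩, hzz⟩
    · exact hw2.2 hw
    · have : z' = z := by
        rw [← hconf.apply_dinv hz'D, hzz, hconf.apply_dinv hzD]
      rw [this] at hz'
      exact hz' hz
  have hXc : IsPreconnected (dinv F '' X) := hX.image _ fun x hx =>
    (hconf.dinv_continuousAt (hXD hx)).continuousWithinAt
  have hXcov : dinv F '' X ⊆ (Dd κ' ∪ LL) ∪ (((ball (0 : ℂ) 1 \ Nb κ') \ Dd κ') ∩
      dinv F '' (D \ Lc)) := by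
    rintro _ ⟨x, hx, rfl⟩
    by_cases hxL : x ∈ Lc
    · exact Or.inl (Or.inr ⟨x, ⟨hXD hx, hxL⟩, rfl⟩)
    by_cases h2 : dinv F x ∈ Dd κ'
    · exact Or.inl (Or.inl h2)
    refine Or.inr ⟨⟨⟨hconf.dinv_mem (hXD hx), hnb x (hXD hx) fun i hi => ?_⟩, h2⟩,
      ⟨x, ⟨hXD hx, hxL⟩, rfl⟩⟩
    by_cases h : te i
    · exact hxL (hTL i h hi)
    · exact disjoint_left.1 (hXO i h) hx (hcl i h ⟨hi, hXD hx⟩)
  have hXne : (dinv F '' X ∩ (Dd κ' ∪ LL)).Nonempty := by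
    obtain ⟨_, hx, w, hw, rfl⟩ := hne
    have he := H.cst.he
    have hw' := mem_ball_zero_iff.1 hw
    refine ⟨w, ⟨_, hx, hconf.dinv_apply (mem_ball_zero_iff.2 (by linarith))⟩, Or.inl (hxD w hw')⟩
  have hXsub := hXc.subset_left_of_subset_union hBo hVo hdisj hXcov hXne
  rcases hXsub ⟨y, hy, rfl⟩ with h | ⟨z, ⟨hzD, hz⟩, hzy⟩
  · exact h
  · exfalso
    have : z = y := by
      rw [← hconf.apply_dinv hzD, hzy, hconf.apply_dinv (hXD hy)]
    rw [this] at hz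
    rcases hyT with h | h
    · linarith [hz.1.2]
    · exact h (hLcb y hz)

/-- **Boundary points which are seen from the base**, with an auxiliary point. -/
theorem ftype2 [Finite ι] {u y v : ℂ}
    (hu : u ∈ Ug (FD ψ W t) σ ε (τ / 2) xc (fun i => dinv (FD ψ W t) '' K i))
    (hyD : y ∈ ψ '' loewnerDomain W t) (hy : dinv (FD ψ W t) y ∈ Rr σ (ε / 2) η x')
    (hd : dist u y ≤ 12 * ℓ) {C : Set ℂ} (hC : IsPreconnected C)
    (hCD : C ⊆ ψ '' loewnerDomain W t) (hCs : ∀ x ∈ C, ∀ y ∈ C, dist x y ≤ 3 * ℓ) (hyC : y ∈ C)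
    (hvC : v ∈ C)
    (hvP : v ∉ Pm ℓ (Ug (FD ψ W t) σ ε (τ / 2) xc (fun i => dinv (FD ψ W t) '' K i)))
    (hvd : dinv (FD ψ W t) v ∈ Dd (fun i => dinv (FD ψ W t) '' K i)) :
    σ * (dinv (FD ψ W t) u).im ≤ τ := by
  have h1 := H.nc2' hu hyD hy hd
  have h2 := H.sit.close' (H.sit.sub hu) (v := y) (by
    rw [H.img]; exact jd_mono h1 (by have := H.h40; have := H.hℓ; linarith))
  have h3 := H.sit.sml C (by rw [H.img]; exact hCD) hC hCs y hyC v hvC
  have h4 : ¬ (ball (dinv (FD ψ W t) v) (4 * e) ∩ ball 0 1 ⊆ Rr σ ε (τ / 2) xc) := fun hsub =>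
    hvP (sub_Pm H.sit.od.hℓ (H.sit.mem_of_pos (by rw [H.img]; exact hCD hvC)
      (gd_of_deep H.sit.obs H.sit.he H.sit.he1 H.sit.hε1 hvd hsub)))
  rw [not_subset] at h4
  obtain ⟨w, ⟨hw1, hw2⟩, hw3⟩ := h4
  have h5 := H.sit.removed (mem_ball_zero_iff.1 hw2) hw3
  have h6 := H.sit.im_dist (w := dinv (FD ψ W t) u) (w' := dinv (FD ψ W t) y)
  have h7 := H.sit.im_dist (w := dinv (FD ψ W t) y) (w' := dinv (FD ψ W t) v)
  have h8 := H.sit.im_dist (w := dinv (FD ψ W t) v) (w' := w)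
  rw [mem_ball, dist_comm] at hw1
  have := H.cst.g1
  linarith

/-- **The polygon is above the line.** -/
theorem pm_above {z : ℂ} (hz1 : |z.re - xb| < rf / 2 - 3 * ℓ) (hz2 : -(rf / 2 - 3 * ℓ) < z.im)
    (hz : z ∈ Pm ℓ (Ug (FD ψ W t) σ ε (τ / 2) xc (fun i => dinv (FD ψ W t) '' K i))) :
    0 < z.im := by
  by_contra hcon
  push Not at hcon
  have hℓ := H.hℓ
  have h40 := H.h40
  have hrf := H.hrf
  have hrf0 := H.flt.hrf
  have hcg := H.hcg
  obtain ⟨X, -, -, -, hGX, hXp, ⟨k, hkX, hk1, hk2⟩, hfar⟩ := H.gate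
  set U : Set ℂ := Ug (FD ψ W t) σ ε (τ / 2) xc (fun i => dinv (FD ψ W t) '' K i) with hU
  have hUD : U ⊆ ψ '' loewnerDomain W t := by rw [← H.img]; exact H.sit.sub
  set B : Set ℂ := {w | |w.re - xb| < rf / 2 - 3 * ℓ ∧ -(rf / 2 - 3 * ℓ) < w.im ∧ w.im < 0} with hB
  have hBc : Convex ℝ B := by
    have e : B = {w : ℂ | w.re < xb + (rf / 2 - 3 * ℓ)} ∩ {w | xb - (rf / 2 - 3 * ℓ) < w.re} ∩
        {w | -(rf / 2 - 3 * ℓ) < w.im} ∩ {w | w.im < 0} := by
      ext w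
      simp only [hB, mem_ofPred_eq, mem_inter_iff, abs_lt]
      constructor
      · rintro ⟨⟨h1, h2⟩, h3, h4⟩
        exact ⟨⟨⟨by linarith, by linarith⟩, h3⟩, h4⟩
      · rintro ⟨⟨⟨h1, h2⟩, h3⟩, h4⟩
        exact ⟨⟨by linarith, by linarith⟩, h3, h4⟩
    rw [e]
    exact (((convex_halfSpace_re_lt _).inter (convex_halfSpace_re_gt _)).inter
      (convex_halfSpace_im_gt _)).inter (convex_halfSpace_im_lt _)
  have hBX : IsPreconnected (B ∪ X) :=
    IsPreconnected.union k ⟨by linarith, by rw [hk2]; linarith, by rw [hk2]; linarith⟩ hkX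
      hBc.isPreconnected hXp
  have hfar' : ∀ G ∈ MF ℓ (B ∪ X), G ∉ MF ℓ U := by
    rintro G ⟨x, hx, hxB | hxX⟩ ⟨u, hu, huU⟩
    · obtain ⟨h1, h2, h3⟩ := hxB
      have hd := dist_le_of_bk hx hu
      rw [dist_eq_norm] at hd
      have hre := (Complex.abs_re_le_norm (x - u)).trans hd
      have him := (Complex.abs_im_le_norm (x - u)).trans hd
      simp only [Complex.sub_re, Complex.sub_im] at hre him
      rw [abs_le] at hre him
      rw [abs_lt] at h1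
      have h4 : ℓ * ((br G).2 : ℝ) < 0 := lt_of_le_of_lt hx.2.2.1 h3
      have h5 : ((br G).2 : ℝ) < 0 := by
        by_contra hc
        push Not at hc
        have := mul_nonneg hℓ.le hc
        linarith
      have h6 : (br G).2 + 1 ≤ 0 := by
        have : (br G).2 < 0 := by exact_mod_cast h5
        omega
      have h7 : ((br G).2 : ℝ) + 1 ≤ 0 := by exact_mod_cast h6
      have h8 : u.im ≤ 0 := by
        have := hu.2.2.2
        have h9 := mul_nonpos_of_nonneg_of_nonpos hℓ.le h7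
        linarith
      exact H.flat_lo (z := u) ⟨by rw [abs_lt]; constructor <;> linarith,
        by rw [abs_lt]; constructor <;> linarith⟩ h8 huU
    · have h2 := hfar x hxX u huU
      have h3 := dist_le_of_bk hx hu
      linarith
  -- a face below
  obtain ⟨F, hF, hFb⟩ : ∃ F, z ∈ sqr ℓ F ∧ F.2 < 0 := by
    obtain ⟨F, hF⟩ := exists_sqr hℓ z
    by_cases h : F.2 < 0
    · exact ⟨F, hF, h⟩
    · push Not at h
      have h1 : 0 ≤ ℓ * (F.2 : ℝ) := mul_nonneg hℓ.le (by exact_mod_cast h)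
      have h2 : z.im = 0 := le_antisymm hcon (h1.trans hF.2.2.1)
      refine ⟨(F.1, -1), ⟨hF.1, hF.2.1, ?_, ?_⟩, by simp⟩
      · push_cast
        rw [h2]; nlinarith
      · push_cast
        rw [h2]; nlinarith
  have hFM : F ∈ MF ℓ (B ∪ X) := by
    have hFb' : (F.2 : ℝ) + 1 ≤ 0 := by exact_mod_cast hFb
    by_cases h : z.im < 0
    · exact mf_of_mem hℓ (Or.inl ⟨hz1, by linarith, h⟩) hF
    · have h2 : z.im = 0 := le_antisymm hcon (not_lt.1 h)
      have h3 := hF.2.2.2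
      have h4 : ℓ * ((F.2 : ℝ) + 1) ≤ 0 := mul_nonpos_of_nonneg_of_nonpos hℓ.le hFb'
      set s : ℝ := min ℓ ((rf / 2 - 3 * ℓ) / 2) with hs
      have hρ : 0 < rf / 2 - 3 * ℓ := lt_of_le_of_lt (abs_nonneg _) hz1
      have hs0 : 0 < s := lt_min hℓ (by linarith)
      have hs1 : s ≤ ℓ := min_le_left _ _
      have hs2 : s ≤ (rf / 2 - 3 * ℓ) / 2 := min_le_right _ _
      have h5 : ℓ * ((F.2 : ℝ) + 1) = 0 := le_antisymm h4 (h2 ▸ h3)
      refine mf_of_mem hℓ (z := ⟨z.re, z.im - s⟩) (Or.inl ⟨hz1, ?_, ?_⟩) ⟨hF.1, hF.2.1, ?_, ?_⟩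
      · show -(rf / 2 - 3 * ℓ) < z.im - s
        linarith
      · show z.im - s < 0
        linarith
      · show ℓ * F.2 ≤ z.im - s
        linarith
      · show z.im - s ≤ ℓ * (F.2 + 1)
        linarith
  have hout : ∀ u ∈ U, u.re + 3 * ℓ < x₁.re := by
    intro u hu
    have := H.flt.g2 u (H.sub_HH (hUD hu))
    linarith
  have h1 : F ∈ Ofc (MF ℓ U) := ofc_of_gate hℓ hBX hfar' (Or.inr (hGX H.flt.g1)) hout hFM
  have h2 : z ∈ (Pm ℓ U)ᶜ := by
    rw [compl_Pm hℓ]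
    exact ⟨F, h1, hF⟩
  exact h2 hz

/-- **The polygon near the target.** -/
theorem pm_flat [Finite ι] {X2 rc : ℝ} (h8 : 8 * R ≤ X3) (h64 : 64 * T ≤ X3 ^ 2)
    (hκ : κ ≤ 1 - ρb X3) (hrc : rc ≤ rf / 2) (hX2 : X1 ≤ X2) (hX22 : 2 ≤ X2)
    (hxB : xB ≤ (X2 / 2 - 1) / (X2 / 2 + 1))
    (hfar : ∀ z ∈ HH, ψ z ∈ Bf xb rc → X2 ≤ ‖z‖) {z : ℂ} (hz : z ∈ Bf xb (rc - 3 * ℓ)) :
    z ∈ Pm ℓ (Ug (FD ψ W t) σ ε (τ / 2) xc (fun i => dinv (FD ψ W t) '' K i)) ↔ 0 < z.im := by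
  have hℓ := H.hℓ
  have hδ := H.flt.hδ
  have hδℓ := H.hδℓ
  constructor
  · intro h
    refine H.pm_above ?_ ?_ h
    · have := hz.1; linarith
    · have := abs_lt.1 hz.2; linarith
  · intro h
    by_contra hcon
    have h1 : z ∈ (Pm ℓ (Ug (FD ψ W t) σ ε (τ / 2) xc (fun i => dinv (FD ψ W t) '' K i)))ᶜ := hcon
    rw [compl_Pm hℓ] at h1
    obtain ⟨F, hF, hzF⟩ := h1
    obtain ⟨q1, q2⟩ := hz
    have q2' := abs_lt.1 q2
    have hU : ∀ z' : ℂ, z' ∈ Bf xb rc → δ < z'.im →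
        z' ∈ Ug (FD ψ W t) σ ε (τ / 2) xc (fun i => dinv (FD ψ W t) '' K i) := fun z' h1 h2 =>
      H.flat_up h8 h64 hκ hrc hX2 hX22 hxB hfar h1 h2
    have hFM : F ∈ MF ℓ (Ug (FD ψ W t) σ ε (τ / 2) xc (fun i => dinv (FD ψ W t) '' K i)) := by
      by_cases hi : δ < z.im
      · exact mf_of_mem hℓ (hU z ⟨by linarith, by linarith⟩ hi) hzF
      · push Not at hi
        refine mf_of_mem hℓ (z := ⟨z.re, ℓ / 2⟩) (hU _ ⟨?_, ?_⟩ ?_) ⟨hzF.1, hzF.2.1, ?_, ?_⟩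
        · show |z.re - xb| < rc
          linarith
        · show |ℓ / 2| < rc
          rw [abs_of_pos (by linarith)]
          linarith
        · show δ < ℓ / 2
          linarith
        · show ℓ * (F.2 : ℝ) ≤ ℓ / 2
          have h3 : ℓ * (F.2 : ℝ) ≤ z.im := hzF.2.2.1
          linarith
        · show ℓ / 2 ≤ ℓ * ((F.2 : ℝ) + 1)
          have h3 : z.im ≤ ℓ * ((F.2 : ℝ) + 1) := hzF.2.2.2
          have h4 : 0 < (F.2 : ℝ) + 1 := by
            by_contra hc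
            push Not at hc
            have := mul_nonpos_of_nonneg_of_nonpos hℓ.le hc
            linarith
          have h5 : 0 < F.2 + 1 := by exact_mod_cast h4
          have h6 : (1 : ℝ) ≤ (F.2 : ℝ) + 1 := by exact_mod_cast h5
          nlinarith
    exact ofc_sub hF hFM

end Sat

end Vale.Agent.P167.SG
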