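import Vale.Agent.P167.SG.Cls7
import Vale.Agent.P167.H259.S.S3
import Vale.Agent.P167.H450.MkC

/-!
# P167, general `q`, SAND: the position at a seen boundary point, from the base square near the line

`Sat.s4_line` : `Sat.s4_im` for a seen set which meets the half box above the line (no deep point
needed). `Sat.s4_bad` : the bad position of the polygon point, off the box.
-/

set_option autoImplicit false

namespace Vale.Agent.P167.SG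

open Set Metric Filter Topology ComplexConjugate
open Vale.Agent.P153.R2.R1 (Conf dinv mb)
open Vale.Agent.P153.R2.L1 (HH)
open Vale.Agent.P164 (loewnerDomain gf Zf)
open Vale.Agent.P167.H756 (Cls FD FD_mb FD_img HConf Drv cls_FD)
open Vale.Agent.P167.H450 Vale.Agent.P167.H450.Out
open Vale.Agent.P167.H259.S (hb union_E)

namespace Sat

variable {ι : Type} {T R x3 xB τ κ x' xc ε η e ν X1 X3 : ℝ} {ψ : ℂ → ℂ} {W : ℝ → ℝ}
    {t σ xb rf cg δ r₀ ρ r' ℓ s₂ : ℝ} {Gt IN : Set ℂ} {x₁ tp : ℂ} {K : ι → Set ℂ}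
    (H : Sat T R x3 xB τ κ x' xc ε η e ν X1 X3 ψ W t σ xb rf cg δ r₀ ρ r' ℓ s₂ Gt IN x₁ tp K)
include H

/-- **The position at a seen boundary point**, the seen set meets the half box above the line. -/
theorem s4_line [Finite ι] (h8 : 8 * R ≤ X3) (h64 : 64 * T ≤ X3 ^ 2) (hκ : κ ≤ 1 - ρb X3)
    {X4 rb : ℝ} (h34 : X3 ≤ X4) (hκ4 : κ ≤ 1 - ρb X4)
    {te : ι → Prop} {r₂ r₃ : ℝ} (hr₃ : r₃ ≤ rf) (hr₃' : rf / 4 ≤ r₃) (hrb : rb ≤ r₃)
    (HT : Te (ψ '' loewnerDomain W t) K te xb r₂ r₃)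
    (hnear : ∀ z ∈ HH, X4 ≤ ‖z‖ → ψ z ∈ Bf xb rb)
    (hup : hb xb rb δ ⊆ Ug (FD ψ W t) σ ε (τ / 2) xc (fun i => dinv (FD ψ W t) '' K i))
    {E C : Set ℂ} (hE : IsPreconnected E) (hED : E ⊆ ψ '' loewnerDomain W t)
    (hEO : ∀ i, ¬ te i → Disjoint E (K i))
    (hEP : ∀ x ∈ E,
      x ∈ closure (Pm ℓ (Ug (FD ψ W t) σ ε (τ / 2) xc (fun i => dinv (FD ψ W t) '' K i))) ∨
      ∃ u ∈ Ug (FD ψ W t) σ ε (τ / 2) xc (fun i => dinv (FD ψ W t) '' K i), dist x u ≤ 12 * ℓ)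
    (hne : (E ∩ hb xb rb δ).Nonempty)
    (hC : IsPreconnected C) (hCD : C ⊆ ψ '' loewnerDomain W t)
    (hCO : ∀ i, ¬ te i → Disjoint C (K i)) (hCs : ∀ x ∈ C, ∀ y ∈ C, dist x y ≤ 3 * ℓ)
    {y v u : ℂ} (hyE : y ∈ E) (hyC : y ∈ C) (hvC : v ∈ C) (hvT : 0 < v.im ∨ v ∉ Bf xb r₃)
    (hvP : v ∉ Pm ℓ (Ug (FD ψ W t) σ ε (τ / 2) xc (fun i => dinv (FD ψ W t) '' K i)))
    (hu : u ∈ Ug (FD ψ W t) σ ε (τ / 2) xc (fun i => dinv (FD ψ W t) '' K i))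
    (hd : dist u y ≤ 12 * ℓ) : σ * (dinv (FD ψ W t) u).im ≤ τ := by
  have hX3 : 0 < X3 := H.flt.hX1.trans_le H.flt.hX3
  have h64' : 64 * T ≤ X4 ^ 2 := h64.trans (pow_le_pow_left₀ hX3.le h34 2)
  obtain ⟨a1, a2, a3, a4⟩ := union_E H (h8.trans h34) h64' hκ4 h34 (hrb.trans hr₃) hnear hE hED hne
  refine H.s4_im h8 h64 hκ hr₃ hr₃' HT a1 a2 ?_ ?_ a3 a4 hC hCD hCO hCs (Or.inl hyE) hyC hvC hvT
    hvP hu hd
  · intro i hi
    refine (hEO i hi).union_left ?_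
    exact ((HT.off i hi).symm).mono_left fun w hw => bf_mono hrb hw.1
  · rintro x (hx | hx)
    · exact hEP x hx
    · refine Or.inr ⟨x, hup hx, ?_⟩
      rw [dist_self]
      have := H.hℓ
      linarith

end Sat

end Vale.Agent.P167.SG
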