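import Vale.Agent.P167.SG.Pos
import Vale.Agent.P167.H756.Chain

/-!
# P167, general `q`, SAND: Harnack's inequality for the positions

`core`: along a connected set at distance `η` from the complement of the domain the distance of the
position from the unit circle changes at most by a constant factor.
-/

set_option autoImplicit false

namespace Vale.Agent.P167.SG

open Set Metric ComplexConjugate
open Vale.Agent.P153.R2.R1 (Conf dinv)
open Vale.Agent.P167.H756 (harnack_chain)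

theorem im_cay {β v : ℂ} (hβ : ‖β‖ = 1) (hv : ‖v‖ < 1) :
    (Complex.I * ((β + v) / (β - v))).im = (1 - ‖v‖ ^ 2) / ‖β - v‖ ^ 2 := by
  have hne : β - v ≠ 0 := by
    intro h
    have : β = v := sub_eq_zero.1 h
    rw [this] at hβ
    linarith
  have hn : Complex.normSq (β - v) ≠ 0 := by
    rw [Ne, Complex.normSq_eq_zero]; exact hne
  have h1 : β.re ^ 2 + β.im ^ 2 = 1 := by
    have := Complex.sq_norm β
    rw [hβ, Complex.normSq_apply] at this
    linarith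
  have h2 : ‖v‖ ^ 2 = v.re ^ 2 + v.im ^ 2 := by
    rw [Complex.sq_norm, Complex.normSq_apply]; ring
  rw [Complex.I_mul_im, Complex.div_re, h2, Complex.sq_norm (β - v)]
  rw [← add_div]
  congr 1
  simp only [Complex.add_re, Complex.sub_re, Complex.add_im, Complex.sub_im]
  linear_combination h1

/-- **Harnack's inequality for the positions.** -/
theorem core {Rd η : ℝ} (hη : 0 < η) : ∃ c > 0, ∀ (F : ℂ → ℂ) (D : Set ℂ), Conf F D →
    ∀ (C : Set ℂ) (z₀ : ℂ), IsPreconnected C → z₀ ∈ C → (∀ z ∈ C, ball z η ⊆ D) →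
      (∀ z ∈ C, dist z z₀ ≤ Rd) → ∀ z ∈ C, c * (1 - ‖dinv F z₀‖) ≤ 1 - ‖dinv F z‖ := by
  obtain ⟨c, hc, hch⟩ := harnack_chain (Rd := Rd) hη
  refine ⟨c / 2, by positivity, fun F D h C z₀ hC hz₀ hη' hR z hz => ?_⟩
  have hCD : ∀ z ∈ C, z ∈ D := fun z hz => hη' z hz (mem_ball_self hη)
  set v := dinv F z with hv
  set v₀ := dinv F z₀ with hv₀
  have hv1 : ‖v‖ < 1 := mem_ball_zero_iff.1 (h.dinv_mem (hCD z hz))
  have hv01 : ‖v₀‖ < 1 := mem_ball_zero_iff.1 (h.dinv_mem (hCD z₀ hz₀))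
  obtain ⟨β, hβ, hβv⟩ : ∃ β : ℂ, ‖β‖ = 1 ∧ ‖β - v‖ = 1 + ‖v‖ := by
    by_cases h0 : v = 0
    · exact ⟨1, norm_one, by rw [h0, sub_zero, norm_one, norm_zero, add_zero]⟩
    · have hn : 0 < ‖v‖ := norm_pos_iff.2 h0
      refine ⟨-(v / ‖v‖), ?_, ?_⟩
      · rw [norm_neg, norm_div, Complex.norm_real, norm_norm, div_self hn.ne']
      · have e : -(v / ‖v‖) - v = -(((1 + ‖v‖ : ℝ) : ℂ) * (v / ‖v‖)) := by
          have : (‖v‖ : ℂ) ≠ 0 := by exact_mod_cast hn.ne'
          push_cast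
          field_simp
          ring
        rw [e, norm_neg, norm_mul, norm_div, Complex.norm_real, Complex.norm_real, norm_norm,
          div_self hn.ne', mul_one, Real.norm_of_nonneg (by positivity)]
  have hne : ∀ x ∈ D, β - dinv F x ≠ 0 := by
    intro x hx h0
    have h1 := mem_ball_zero_iff.1 (h.dinv_mem hx)
    rw [← sub_eq_zero.1 h0, hβ] at h1
    exact lt_irrefl _ h1
  have hdiff : DifferentiableOn ℂ (fun x => Complex.I * ((β + dinv F x) / (β - dinv F x))) D := by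
    have h1 := h.dinv_differentiableOn
    exact (((h1.const_add β).div (h1.const_sub β) hne).const_mul Complex.I)
  have himp : ∀ x ∈ D, 0 < (Complex.I * ((β + dinv F x) / (β - dinv F x))).im := by
    intro x hx
    have h1 := mem_ball_zero_iff.1 (h.dinv_mem hx)
    rw [im_cay hβ h1]
    have h2 : 0 < ‖β - dinv F x‖ := norm_pos_iff.2 (hne x hx)
    have h3 : 0 < 1 - ‖dinv F x‖ ^ 2 := by nlinarith [norm_nonneg (dinv F x)]
    positivity
  have key := hch D _ hdiff himp C z₀ hC hz₀ hη' hR z hz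
  rw [im_cay hβ hv01, im_cay hβ hv1, hβv] at key
  have h4 : (1 - ‖v‖ ^ 2) / (1 + ‖v‖) ^ 2 ≤ 1 - ‖v‖ := by
    rw [div_le_iff₀ (by positivity)]
    nlinarith [norm_nonneg v, sq_nonneg ‖v‖]
  have h5 : ‖β - v₀‖ ≤ 1 + ‖v₀‖ := by
    refine (norm_sub_le _ _).trans ?_
    rw [hβ]
  have h6 : 0 < ‖β - v₀‖ := norm_pos_iff.2 (hne z₀ (hCD z₀ hz₀))
  have h7 : (1 - ‖v₀‖) / 2 ≤ (1 - ‖v₀‖ ^ 2) / ‖β - v₀‖ ^ 2 := by
    rw [div_le_div_iff₀ (by norm_num) (by positivity)]
    have h8 : ‖β - v₀‖ ^ 2 ≤ (1 + ‖v₀‖) ^ 2 := by gcongr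
    have h9 : 0 ≤ 1 - ‖v₀‖ := by linarith
    have h10 := mul_le_mul_of_nonneg_left h8 h9
    nlinarith [norm_nonneg v₀, mul_nonneg h9 (norm_nonneg v₀)]
  have h11 := mul_le_mul_of_nonneg_left h7 hc.le
  calc c / 2 * (1 - ‖v₀‖) = c * ((1 - ‖v₀‖) / 2) := by ring
    _ ≤ _ := h11
    _ ≤ _ := key
    _ ≤ _ := h4

end Vale.Agent.P167.SG
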