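import Vale.Agent.P167.SG.Jan
import Vale.Agent.P153.R2.R1.Jan

/-!
# P167, general `q`, SAND: the domain of the disc with the collar removed, obstacles

`Rr σ ε ε' xc`: the unit disc without the collar of width `ε` over the part `σ Im ≤ ε'`, `Re ≤ xc`
of the circle. `Obs e κ`: small connected sets at the circle. `Gd`: the component of `0` in
`Rr \ ⋃ closure κ`. `gd_local`: its points are joined in it to the points of the smaller disc near
them; `gd_of_deep`: a point of the component of `0` in the disc minus the obstacles is in `Gd` if its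
neighbourhood in the disc is in `Rr`.
-/

set_option autoImplicit false

namespace Vale.Agent.P167.SG

open Set Metric

variable {σ ε ε' xc e : ℝ} {w w' z : ℂ}

/-- The disc with a part of the collar removed. -/
def Rr (σ ε ε' xc : ℝ) : Set ℂ :=
  {w | ‖w‖ < 1 ∧ (‖w‖ < 1 - ε ∨ ε' * ‖w‖ < σ * w.im ∨ xc * ‖w‖ < w.re)}

theorem rr_sub : Rr σ ε ε' xc ⊆ ball 0 1 := fun _ h => mem_ball_zero_iff.2 h.1

theorem isOpen_rr : IsOpen (Rr σ ε ε' xc) := by
  refine IsOpen.inter (isOpen_lt continuous_norm continuous_const) ?_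
  refine IsOpen.union (isOpen_lt continuous_norm continuous_const) (IsOpen.union ?_ ?_)
  · exact isOpen_lt (continuous_const.mul continuous_norm)
      (continuous_const.mul Complex.continuous_im)
  · exact isOpen_lt (continuous_const.mul continuous_norm) Complex.continuous_re

theorem rr_smul (hε : ε < 1) {t : ℝ} (ht : 0 ≤ t) (ht1 : t ≤ 1) (hw : w ∈ Rr σ ε ε' xc) :
    (t : ℂ) * w ∈ Rr σ ε ε' xc := by
  obtain ⟨h1, h2⟩ := hw
  have hn : ‖(t : ℂ) * w‖ = t * ‖w‖ := by
    rw [norm_mul, Complex.norm_real, Real.norm_of_nonneg ht]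
  have h0 := norm_nonneg w
  rcases ht.eq_or_lt with rfl | ht0
  · simp [Rr, hε]
  refine ⟨?_, ?_⟩
  · rw [hn]; nlinarith
  rw [hn]
  rcases h2 with h | h | h
  · left; nlinarith
  · right; left
    simp only [Complex.mul_im, Complex.ofReal_re, Complex.ofReal_im, zero_mul, add_zero]
    nlinarith
  · right; right
    simp only [Complex.mul_re, Complex.ofReal_re, Complex.ofReal_im, zero_mul, sub_zero]
    nlinarith

theorem zero_mem_rr (hε : ε < 1) : (0 : ℂ) ∈ Rr σ ε ε' xc := by simp [Rr, hε]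

theorem segment_rr (hε : ε < 1) (hw : w ∈ Rr σ ε ε' xc) {t : ℝ} (ht : 0 ≤ t) (ht1 : t ≤ 1) :
    segment ℝ ((t : ℂ) * w) w ⊆ Rr σ ε ε' xc := by
  rintro _ ⟨a, b, ha, hb, hab, rfl⟩
  have e1 : a • ((t : ℂ) * w) + b • w = ((a * t + b : ℝ) : ℂ) * w := by
    simp only [Complex.real_smul]
    push_cast
    ring
  rw [e1]
  refine rr_smul hε (by positivity) ?_ hw
  nlinarith

theorem conn_rr (hε : ε < 1) : IsPreconnected (Rr σ ε ε' xc) := by
  refine isPreconnected_of_forall 0 fun w hw => ?_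
  refine ⟨segment ℝ 0 w, ?_, left_mem_segment ℝ _ _, right_mem_segment ℝ _ _,
    (convex_segment _ _).isPreconnected⟩
  have h := segment_rr hε hw (t := 0) le_rfl zero_le_one
  simpa using h

/-- The complement is connected. -/
theorem conn_compl_rr (hε : ε < 1) : IsPreconnected (Rr σ ε ε' xc)ᶜ := by
  have hs : ({z : ℂ | 1 < ‖z‖}) ⊆ (Rr σ ε ε' xc)ᶜ := by
    intro z hz h
    have h1 := h.1
    have h2 : 1 < ‖z‖ := hz
    linarith
  have hc : IsPreconnected {z : ℂ | 1 < ‖z‖} := by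
    have h := P153.R2.R1.preconnected_compl_closedBall (0 : ℂ) 1
    convert h using 1
    ext z
    simp
  refine isPreconnected_of_forall 2 fun w hw => ?_
  have h2 : (2 : ℂ) ∈ {z : ℂ | 1 < ‖z‖} := by simp
  by_cases hw0 : w = 0
  · exact absurd (hw0 ▸ zero_mem_rr hε) hw
  have hn : 0 < ‖w‖ := norm_pos_iff.2 hw0
  set M : ℝ := 1 + 2 / ‖w‖ with hM
  have hM1 : 1 ≤ M := by
    have : 0 ≤ 2 / ‖w‖ := by positivity
    linarith
  refine ⟨{z : ℂ | 1 < ‖z‖} ∪ segment ℝ w ((M : ℂ) * w), ?_, Or.inl h2,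
    Or.inr (left_mem_segment ℝ _ _), ?_⟩
  · rintro z (hz | hz)
    · exact hs hz
    · obtain ⟨a, b, ha, hb, hab, rfl⟩ := hz
      have e1 : a • w + b • ((M : ℂ) * w) = ((a + b * M : ℝ) : ℂ) * w := by
        simp only [Complex.real_smul]
        push_cast
        ring
      rw [e1]
      set s : ℝ := a + b * M with hs'
      have hs1 : 1 ≤ s := by nlinarith
      intro hmem
      apply hw
      have h3 := rr_smul hε (t := s⁻¹) (by positivity) (inv_le_one_of_one_le₀ hs1) hmem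
      have hs0 : (s : ℂ) ≠ 0 := by
        exact_mod_cast (by linarith : s ≠ 0)
      have e2 : ((s⁻¹ : ℝ) : ℂ) * ((s : ℂ) * w) = w := by
        push_cast
        rw [← mul_assoc, inv_mul_cancel₀ hs0, one_mul]
      rwa [e2] at h3
  · refine IsPreconnected.union ((M : ℂ) * w) ?_ (right_mem_segment ℝ _ _) hc
      (convex_segment _ _).isPreconnected
    show 1 < ‖(M : ℂ) * w‖
    rw [norm_mul, Complex.norm_real, Real.norm_of_nonneg (by linarith)]
    have : M * ‖w‖ = ‖w‖ + 2 := by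
      rw [hM]; field_simp
    rw [this]
    linarith

/-- Small connected sets at the circle. -/
structure Obs {ι : Type*} (e : ℝ) (κ : ι → Set ℂ) : Prop where
  nn : 0 ≤ e
  sub : ∀ i, κ i ⊆ ball 0 1
  conn : ∀ i, IsPreconnected (κ i)
  small : ∀ i, ∀ w ∈ κ i, ∀ w' ∈ κ i, dist w w' ≤ e
  bd : ∀ i, ∃ s ∈ closure (κ i), 1 ≤ ‖s‖

variable {ι : Type*} {κ : ι → Set ℂ}

theorem Obs.small' (H : Obs e κ) (i : ι) (hw : w ∈ closure (κ i)) (hw' : w' ∈ closure (κ i)) :
    dist w w' ≤ e := by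
  have h1 : ∀ v ∈ κ i, dist w v ≤ e := by
    intro v hv
    have : closure (κ i) ⊆ {x | dist x v ≤ e} :=
      closure_minimal (fun x hx => H.small i x hx v hv) (isClosed_le (by fun_prop) continuous_const)
    exact this hw
  have : closure (κ i) ⊆ {x | dist w x ≤ e} :=
    closure_minimal (fun x hx => h1 x hx) (isClosed_le (by fun_prop) continuous_const)
  exact this hw'

/-- The obstacles are near the circle. -/
theorem Obs.near (H : Obs e κ) (i : ι) (hw : w ∈ closure (κ i)) : 1 - e ≤ ‖w‖ := by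
  obtain ⟨s, hs, hs1⟩ := H.bd i
  have h1 := H.small' i hw hs
  have h2 : ‖s‖ - ‖w‖ ≤ dist w s := by
    rw [dist_comm, dist_eq_norm]
    exact norm_sub_norm_le s w
  linarith

/-- **Local connection** (obstacles in a domain `V` of the disc). -/
theorem Obs.join [Finite ι] (H : Obs e κ) {V : Set ℂ} (hV : IsOpen V) (hVb : V ⊆ ball 0 1)
    (hVc : IsPreconnected Vᶜ) {w₀ p q : ℂ} {ρ ρ' : ℝ} (hρ : ρ + e < ρ')
    (h1 : JoinedIn (V \ ⋃ i, closure (κ i)) p q) (h2 : JoinedIn (V ∩ ball w₀ ρ) p q) :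
    JoinedIn ((V ∩ ball w₀ ρ') \ ⋃ i, closure (κ i)) p q := by
  have he0 := H.nn
  refine jan_obst hV (isBounded_ball.subset hVb) hVc (fun i => (H.conn i).closure)
    (fun i => isClosed_closure) (fun i => (isBounded_ball.subset (H.sub i)).closure) ?_ isOpen_ball
    (ball_subset_ball (by linarith)) ?_ h1 h2
  · intro i
    obtain ⟨s, hs, hs1⟩ := H.bd i
    refine ⟨s, hs, fun hsV => ?_⟩
    have := hVb hsV
    rw [mem_ball_zero_iff] at this
    linarith
  · rintro i ⟨u, hu, huV, huW⟩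
    rw [disjoint_left]
    rintro v hv ⟨-, hvW⟩
    apply huW
    rw [mem_ball] at hvW ⊢
    have h3 := H.small' i hu hv
    have h4 := dist_triangle u v w₀
    linarith

/-- All obstacles. -/
def Nb (κ : ι → Set ℂ) : Set ℂ := ⋃ i, closure (κ i)

/-- The component of `0` in the disc without the collar and the obstacles. -/
def Gd (σ ε ε' xc : ℝ) (κ : ι → Set ℂ) : Set ℂ := connectedComponentIn (Rr σ ε ε' xc \ Nb κ) 0

/-- The component of `0` in the disc without the obstacles. -/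
def Dd (κ : ι → Set ℂ) : Set ℂ := connectedComponentIn (ball 0 1 \ Nb κ) 0

theorem isClosed_nb [Finite ι] (κ : ι → Set ℂ) : IsClosed (Nb κ) :=
  isClosed_iUnion_of_finite fun _ => isClosed_closure

theorem Obs.near' (H : Obs e κ) (hw : w ∈ Nb κ) : 1 - e ≤ ‖w‖ := by
  obtain ⟨i, hi⟩ := mem_iUnion.1 hw
  exact H.near i hi

theorem gd_sub : Gd σ ε ε' xc κ ⊆ Rr σ ε ε' xc \ Nb κ := connectedComponentIn_subset _ _

theorem dd_sub : Dd κ ⊆ ball 0 1 \ Nb κ := connectedComponentIn_subset _ _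

theorem isOpen_gd [Finite ι] : IsOpen (Gd σ ε ε' xc κ) :=
  (isOpen_rr.sdiff (isClosed_nb κ)).connectedComponentIn

theorem isOpen_dd [Finite ι] : IsOpen (Dd κ) :=
  (isOpen_ball.sdiff (isClosed_nb κ)).connectedComponentIn

theorem conn_gd : IsPreconnected (Gd σ ε ε' xc κ) := isPreconnected_connectedComponentIn

theorem conn_dd : IsPreconnected (Dd κ) := isPreconnected_connectedComponentIn

theorem Obs.zero_notMem (H : Obs e κ) (he : e < 1) : (0 : ℂ) ∉ Nb κ := fun h => by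
  have := H.near' h
  simp at this
  linarith

theorem zero_mem_gd (H : Obs e κ) (he : e < 1) (hε : ε < 1) : (0 : ℂ) ∈ Gd σ ε ε' xc κ :=
  mem_connectedComponentIn ⟨zero_mem_rr hε, H.zero_notMem he⟩

theorem zero_mem_dd (H : Obs e κ) (he : e < 1) : (0 : ℂ) ∈ Dd κ :=
  mem_connectedComponentIn ⟨by simp, H.zero_notMem he⟩

theorem gd_sub_dd : Gd σ ε ε' xc κ ⊆ Dd κ :=
  connectedComponentIn_mono _ (diff_subset_diff_left rr_sub)

/-- The points of the smaller disc. -/
theorem gd_of_norm (H : Obs e κ) (hε : ε < 1) (hw : w ∈ Rr σ ε ε' xc)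
    (h : ‖w‖ < 1 - e) : w ∈ Gd σ ε ε' xc κ := by
  have he : e < 1 := by have := norm_nonneg w; linarith
  refine (convex_segment (𝕜 := ℝ) (0 : ℂ) w).isPreconnected.subset_connectedComponentIn
    (left_mem_segment ℝ _ _) ?_ (right_mem_segment ℝ _ _)
  intro z hz
  have h1 := segment_rr (σ := σ) (ε' := ε') (xc := xc) hε hw (t := 0) le_rfl zero_le_one
  refine ⟨h1 (by simpa using hz), fun hN => ?_⟩
  have h2 := H.near' hN
  obtain ⟨a, b, ha, hb, hab, rfl⟩ := hz
  rw [smul_zero, zero_add, norm_smul, Real.norm_of_nonneg hb] at h2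
  have : b * ‖w‖ ≤ 1 * ‖w‖ := mul_le_mul_of_nonneg_right (by linarith) (norm_nonneg _)
  linarith

/-- The point of the smaller disc near a point. -/
theorem exists_core (he : 0 < e) (he1 : 2 * e < 1) (hε : ε < 1) (hw : w ∈ Rr σ ε ε' xc) :
    ∃ c ∈ Rr σ ε ε' xc, ‖c‖ < 1 - e ∧
      segment ℝ w c ⊆ Rr σ ε ε' xc ∩ ball w (2 * e) := by
  by_cases h : ‖w‖ < 1 - e
  · refine ⟨w, hw, h, ?_⟩
    rw [segment_same]
    rintro _ rfl
    exact ⟨hw, mem_ball_self (by linarith)⟩
  · push Not at h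
    have hn : 0 < ‖w‖ := by linarith
    have hn1 : ‖w‖ < 1 := hw.1
    set t : ℝ := (1 - 2 * e) / ‖w‖ with ht
    have ht0 : 0 ≤ t := div_nonneg (by linarith) hn.le
    have ht1 : t ≤ 1 := by rw [ht, div_le_one hn]; linarith
    have htn : t * ‖w‖ = 1 - 2 * e := by rw [ht]; field_simp
    refine ⟨(t : ℂ) * w, rr_smul hε ht0 ht1 hw, ?_, ?_⟩
    · rw [norm_mul, Complex.norm_real, Real.norm_of_nonneg ht0, htn]
      linarith
    · rw [segment_symm]
      intro z hz
      refine ⟨segment_rr hε hw ht0 ht1 hz, ?_⟩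
      obtain ⟨a, b, ha, hb, hab, rfl⟩ := hz
      rw [mem_ball, dist_eq_norm]
      have e1 : a • ((t : ℂ) * w) + b • w - w = ((-(a * (1 - t)) : ℝ) : ℂ) * w := by
        have hb' : b = 1 - a := by linarith
        rw [hb']
        simp only [Complex.real_smul]
        push_cast
        ring
      rw [e1, norm_mul, Complex.norm_real, norm_neg, Real.norm_of_nonneg (by nlinarith)]
      have ha1 : a ≤ 1 := by linarith
      have h3 : (1 - t) * ‖w‖ = ‖w‖ - (1 - 2 * e) := by rw [sub_mul, htn, one_mul]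
      nlinarith

theorem joinedIn_of_conn {V : Set ℂ} (hV : IsOpen V) {p q : ℂ}
    (h : q ∈ connectedComponentIn V p) (hp : p ∈ V) : JoinedIn (connectedComponentIn V p) p q :=
  (hV.connectedComponentIn.isConnected_iff_isPathConnected.1
    ⟨⟨p, mem_connectedComponentIn hp⟩, isPreconnected_connectedComponentIn⟩).joinedIn p
    (mem_connectedComponentIn hp) q h

/-- **Local connection of `Gd` to the smaller disc.** -/
theorem gd_local [Finite ι] (H : Obs e κ) (he : 0 < e) (he1 : 2 * e < 1) (hε : ε < 1)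
    (hw : w ∈ Gd σ ε ε' xc κ) : ∃ c ∈ Rr σ ε ε' xc, ‖c‖ < 1 - e ∧
      JoinedIn (Gd σ ε ε' xc κ ∩ ball w (4 * e)) w c := by
  obtain ⟨c, hc, hc1, hcs⟩ := exists_core (σ := σ) (ε := ε) (ε' := ε') (xc := xc) he he1 hε
    (gd_sub hw).1
  have hO : IsOpen (Rr σ ε ε' xc \ Nb κ) := isOpen_rr.sdiff (isClosed_nb κ)
  have h0 : (0 : ℂ) ∈ Rr σ ε ε' xc \ Nb κ := ⟨zero_mem_rr hε, H.zero_notMem (by linarith)⟩
  have j1 := joinedIn_of_conn hO hw h0
  have j2 := joinedIn_of_conn hO (gd_of_norm H hε hc hc1) h0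
  have j3 : JoinedIn (Rr σ ε ε' xc \ Nb κ) w c := (j1.symm.trans j2).mono gd_sub
  have j4 : JoinedIn (Rr σ ε ε' xc ∩ ball w (2 * e)) w c := by
    refine (JoinedIn.of_segment_subset hcs)
  have j5 := H.join isOpen_rr rr_sub (conn_compl_rr hε) (ρ' := 4 * e) (by linarith) j3 j4
  refine ⟨c, hc, hc1, ?_⟩
  obtain ⟨γ, hγ⟩ := j5
  refine ⟨γ, fun t => ⟨?_, (hγ t).1.2⟩⟩
  -- the path stays in the component
  have h1 : range γ ⊆ Rr σ ε ε' xc \ Nb κ := by
    rintro _ ⟨t, rfl⟩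
    exact ⟨(hγ t).1.1, (hγ t).2⟩
  have h2 : IsPreconnected (Gd σ ε ε' xc κ ∪ range γ) :=
    IsPreconnected.union w hw ⟨0, γ.source⟩ conn_gd (isPreconnected_range γ.continuous)
  exact h2.subset_connectedComponentIn (Or.inl (mem_connectedComponentIn h0))
    (union_subset gd_sub h1) (Or.inr ⟨t, rfl⟩)

/-- **Points of the component of the disc whose neighbourhood is in `Rr`.** -/
theorem gd_of_deep [Finite ι] (H : Obs e κ) (he : 0 < e) (he1 : 2 * e < 1) (hε : ε < 1)
    (hw : w ∈ Dd κ) (hd : ball w (4 * e) ∩ ball 0 1 ⊆ Rr σ ε ε' xc) : w ∈ Gd σ ε ε' xc κ := by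
  have hw1 := dd_sub hw
  have hwR : w ∈ Rr σ ε ε' xc := hd ⟨mem_ball_self (by linarith), hw1.1⟩
  obtain ⟨c, hc, hc1, hcs⟩ := exists_core (σ := σ) (ε := ε) (ε' := ε') (xc := xc) he he1 hε hwR
  have hO : IsOpen (ball (0 : ℂ) 1 \ Nb κ) := isOpen_ball.sdiff (isClosed_nb κ)
  have h0 : (0 : ℂ) ∈ ball (0 : ℂ) 1 \ Nb κ := ⟨by simp, H.zero_notMem (by linarith)⟩
  have hcG := gd_of_norm H hε hc hc1
  have j1 := joinedIn_of_conn hO hw h0
  have j2 := joinedIn_of_conn hO (gd_sub_dd hcG) h0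
  have j3 : JoinedIn (ball (0 : ℂ) 1 \ Nb κ) w c := (j1.symm.trans j2).mono dd_sub
  have j4 : JoinedIn (ball (0 : ℂ) 1 ∩ ball w (2 * e)) w c :=
    JoinedIn.of_segment_subset fun z hz => ⟨rr_sub (hcs hz).1, (hcs hz).2⟩
  have hbc : IsPreconnected (ball (0 : ℂ) 1)ᶜ := by
    have h := conn_compl_rr (σ := 0) (ε := 0) (ε' := 1) (xc := 1) (by norm_num)
    convert h using 2
    ext z
    simp only [Rr, mem_ball_zero_iff, mem_setOf_eq]
    constructor
    · intro h; exact ⟨h, Or.inl (by simpa using h)⟩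
    · exact fun h => h.1
  have j5 := H.join isOpen_ball subset_rfl hbc (ρ' := 4 * e) (by linarith) j3 j4
  have j6 : JoinedIn (Rr σ ε ε' xc \ Nb κ) w c :=
    j5.mono fun z hz => ⟨hd ⟨hz.1.2, hz.1.1⟩, hz.2⟩
  obtain ⟨γ, hγ⟩ := j6
  have h1 : range γ ⊆ Rr σ ε ε' xc \ Nb κ := by
    rintro _ ⟨t, rfl⟩
    exact hγ t
  have h0' : (0 : ℂ) ∈ Rr σ ε ε' xc \ Nb κ := ⟨zero_mem_rr hε, H.zero_notMem (by linarith)⟩
  have h2 : IsPreconnected (Gd σ ε ε' xc κ ∪ range γ) :=
    IsPreconnected.union c hcG ⟨1, γ.target⟩ conn_gd (isPreconnected_range γ.continuous)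
  exact h2.subset_connectedComponentIn (Or.inl (mem_connectedComponentIn h0'))
    (union_subset gd_sub h1) (Or.inr ⟨0, γ.source⟩)

end Vale.Agent.P167.SG
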