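import Vale.Agent.P153.R2.TOP.Sep

/-!
# P167, general `q`, SAND: obstacles at the boundary

`jan_obst`: `U` bounded open with connected complement, `K i` finitely many closed connected sets
which meet the complement of `U`. If `p`, `q` are joined in `U \ ⋃ K i` and in `U ∩ W'`, and every
`K i` which meets `U \ W` is disjoint from `W'`, then `p`, `q` are joined in
`(U ∩ W) \ ⋃ K i`.
-/

set_option autoImplicit false

namespace Vale.Agent.P167.SG

open Set Metric

/-- The part of the complement of a bounded open set in a large ball is connected. -/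
theorem conn_trunc {U : Set ℂ} (hUc : IsPreconnected Uᶜ) {R : ℝ} (hR : 0 < R)
    (hUR : U ⊆ ball 0 R) : IsPreconnected (closedBall (0 : ℂ) R \ U) := by
  set f : ℂ → ℂ := fun z => ((R / max R ‖z‖ : ℝ) : ℂ) * z with hf
  have hm : ∀ z : ℂ, 0 < max R ‖z‖ := fun z => lt_of_lt_of_le hR (le_max_left _ _)
  have hfc : Continuous f := by
    refine Continuous.mul ?_ continuous_id
    refine Complex.continuous_ofReal.comp ?_
    exact continuous_const.div (continuous_const.max continuous_norm) fun z => (hm z).ne'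
  have h1 : f '' Uᶜ = closedBall 0 R \ U := by
    apply Subset.antisymm
    · rintro _ ⟨z, hz, rfl⟩
      by_cases h : ‖z‖ ≤ R
      · have e : f z = z := by
          simp only [hf]
          rw [max_eq_left h, div_self hR.ne']
          simp
        rw [e]
        exact ⟨by simpa using h, hz⟩
      · push Not at h
        have e : ‖f z‖ = R := by
          simp only [hf]
          rw [max_eq_right h.le, norm_mul, Complex.norm_real, Real.norm_of_nonneg
            (div_nonneg hR.le (norm_nonneg _))]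
          field_simp [(hR.trans h).ne']
        refine ⟨by simp [e], fun hU => ?_⟩
        have := hUR hU
        rw [mem_ball_zero_iff, e] at this
        exact lt_irrefl _ this
    · rintro z ⟨hz, hzU⟩
      refine ⟨z, hzU, ?_⟩
      simp only [hf]
      rw [max_eq_left (by simpa using hz), div_self hR.ne']
      simp
  rw [← h1]
  exact hUc.image f hfc.continuousOn

/-- **Obstacles at the boundary.** -/
theorem jan_obst {ι : Type*} [Finite ι] {U W W' : Set ℂ} {K : ι → Set ℂ} (hU : IsOpen U)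
    (hUb : Bornology.IsBounded U) (hUc : IsPreconnected Uᶜ) (hK : ∀ i, IsPreconnected (K i))
    (hKc : ∀ i, IsClosed (K i)) (hKb : ∀ i, Bornology.IsBounded (K i))
    (hKU : ∀ i, (K i ∩ Uᶜ).Nonempty) (hW : IsOpen W) (hWW : W' ⊆ W)
    (far : ∀ i, (K i ∩ (U \ W)).Nonempty → Disjoint (K i) (U ∩ W')) {p q : ℂ}
    (h1 : JoinedIn (U \ ⋃ i, K i) p q) (h2 : JoinedIn (U ∩ W') p q) :
    JoinedIn ((U ∩ W) \ ⋃ i, K i) p q := by
  classical
  obtain ⟨R, hR0, hR⟩ : ∃ R : ℝ, 0 < R ∧ U ∪ (⋃ i, K i) ⊆ ball 0 R := by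
    have hb : Bornology.IsBounded (U ∪ ⋃ i, K i) :=
      hUb.union (Bornology.isBounded_iUnion.2 hKb)
    obtain ⟨R, hR0, hR⟩ := hb.subset_ball_lt 0 0
    exact ⟨R, hR0, hR⟩
  have hUR : U ⊆ ball 0 R := subset_union_left.trans hR
  have hKR : ∀ i, K i ⊆ ball 0 R := fun i => (subset_iUnion K i).trans (subset_union_right.trans hR)
  set X : Set ℂ := closedBall 0 R \ U with hX
  have hXc : IsPreconnected X := conn_trunc hUc hR0 hUR
  have hXcl : IsClosed X := isClosed_closedBall.sdiff hU
  set Fr : Set ι := {i | (K i ∩ (U \ W)).Nonempty} with hFr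
  set A : Set ℂ := (closedBall 0 R \ (U ∩ W)) ∪ ⋃ i ∈ Fr, K i with hA
  set B : Set ℂ := X ∪ ⋃ i, K i with hB
  have hAc : IsCompact A := by
    refine ((isCompact_closedBall (0 : ℂ) R).diff (hU.inter hW)).union ?_
    exact (Fr.toFinite).isCompact_biUnion fun i _ => isCompact_of_isClosed_isBounded (hKc i) (hKb i)
  have hBc : IsCompact B := by
    refine ((isCompact_closedBall (0 : ℂ) R).diff hU).union ?_
    exact isCompact_iUnion fun i => (isCompact_of_isClosed_isBounded (hKc i) (hKb i))
  have hAB : A ∩ B = X ∪ ⋃ i ∈ Fr, K i := by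
    apply Subset.antisymm
    · rintro z ⟨hzA, hzB⟩
      rcases hzA with ⟨hz1, hz2⟩ | hz
      · by_cases hzU : z ∈ U
        · right
          have hzW : z ∉ W := fun h => hz2 ⟨hzU, h⟩
          rcases hzB with h | h
          · exact absurd hzU h.2
          · obtain ⟨i, hi⟩ := mem_iUnion.1 h
            exact mem_iUnion₂.2 ⟨i, ⟨z, hi, hzU, hzW⟩, hi⟩
        · exact Or.inl ⟨hz1, hzU⟩
      · exact Or.inr hz
    · rintro z (hz | hz)
      · exact ⟨Or.inl ⟨hz.1, fun h => hz.2 h.1⟩, Or.inl hz⟩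
      · refine ⟨Or.inr hz, Or.inr ?_⟩
        obtain ⟨i, _, hi⟩ := mem_iUnion₂.1 hz
        exact mem_iUnion.2 ⟨i, hi⟩
  have hABc : IsPreconnected (A ∩ B) := by
    rw [hAB]
    obtain ⟨x₀, hx₀⟩ : X.Nonempty := by
      refine ⟨(R : ℂ), ?_, fun h => ?_⟩
      · simp [abs_of_pos hR0]
      · have := hUR h
        rw [mem_ball_zero_iff, Complex.norm_real, Real.norm_of_nonneg hR0.le] at this
        exact lt_irrefl _ this
    have e : X ∪ ⋃ i ∈ Fr, K i = ⋃₀ (insert X ((fun i => X ∪ K i) '' Fr)) := by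
      ext z
      simp only [mem_union, mem_iUnion, sUnion_insert, sUnion_image, exists_prop]
      constructor
      · rintro (h | ⟨i, hi, h⟩)
        · exact Or.inl h
        · exact Or.inr ⟨i, hi, Or.inr h⟩
      · rintro (h | ⟨i, hi, h | h⟩)
        · exact Or.inl h
        · exact Or.inl h
        · exact Or.inr ⟨i, hi, h⟩
    rw [e]
    apply isPreconnected_sUnion x₀
    · rintro s (rfl | ⟨i, _, rfl⟩)
      · exact hx₀
      · exact Or.inl hx₀
    · rintro s (rfl | ⟨i, _, rfl⟩)
      · exact hXc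
      · obtain ⟨u, hu1, hu2⟩ := hKU i
        exact IsPreconnected.union u ⟨ball_subset_closedBall (hKR i hu1), hu2⟩ hu1 hXc (hK i)
  have j1 : JoinedIn Aᶜ p q := by
    refine h2.mono fun z hz hzA => ?_
    rcases hzA with h | h
    · exact h.2 ⟨hz.1, hWW hz.2⟩
    · obtain ⟨i, hi, h⟩ := mem_iUnion₂.1 h
      exact disjoint_left.1 (far i hi) h hz
  have j2 : JoinedIn Bᶜ p q := by
    refine h1.mono fun z hz hzB => ?_
    rcases hzB with h | h
    · exact h.2 hz.1
    · exact hz.2 h
  obtain ⟨γ, hγ⟩ := P153.TOP.janiszewski hAc hBc hABc j1 j2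
  have hpU : p ∈ U := h1.mem.1.1
  have hγR : range γ ⊆ ball 0 R := by
    refine (isPreconnected_range γ.continuous).subset_left_of_subset_union
      isOpen_ball (isClosed_closedBall (x := (0 : ℂ)) (ε := R)).isOpen_compl ?_ ?_ ?_
    · rw [Set.disjoint_left]
      exact fun x hx hx' => hx' (ball_subset_closedBall hx)
    · rintro _ ⟨t, rfl⟩
      by_contra hcon
      rw [mem_union, not_or, notMem_compl_iff] at hcon
      apply hγ t
      refine Or.inr (Or.inl ⟨hcon.2, fun h => hcon.1 (hUR h)⟩)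
    · exact ⟨p, ⟨0, γ.source⟩, hUR hpU⟩
  refine ⟨γ, fun t => ?_⟩
  have h3 := hγ t
  have h4 := hγR (mem_range_self t)
  rw [mem_compl_iff, mem_union, not_or] at h3
  have h5 : γ t ∈ U ∩ W := by
    by_contra h
    exact h3.1 (Or.inl ⟨ball_subset_closedBall h4, h⟩)
  exact ⟨h5, fun h => h3.2 (Or.inr h)⟩

end Vale.Agent.P167.SG
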